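import Vale.Agent.P045.Ryser.Free

/-!
# The local statement: at one point, an edge avoiding the marks exists
-/

namespace Vale.Agent.P045.Ryser

open Finset

set_option maxRecDepth 20000
set_option linter.constructorNameAsVariable false

variable {u q : ℕ}

/-- Disjoint colour sets on the lines give an injective colouring of the edge. -/
theorem injOn_colV [NeZero q] (hp : Par u q) {P : Fin 10 → Coef q}
    {κ : Option (ZMod q) → Finset (Finset (Slot u)) → Pool u q} (hκ : IsGood (suppL P) κ)
    (A : Option (ZMod q) → Finset (Slot u))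
    (hdis : ∀ i j, i ≠ j → Disjoint (cols P κ i (A i)) (cols P κ j (A j))) :
    Set.InjOn (colV P κ) (edgeL A) := by
  have hmem : ∀ v ∈ edgeL A, colV P κ v ∈ cols P κ v.1 (A v.1) := by
    rintro ⟨i, z⟩ hv
    dsimp only [edgeL, Set.mem_ofPred_eq] at hv
    rcases hv with ⟨s, hs, rfl⟩ | rfl
    · exact mem_insert_of_mem (mem_image_of_mem _ hs)
    · exact mem_insert_self _ _
  rintro ⟨i, z⟩ hv ⟨j, z'⟩ hw h
  have hij : i = j := by
    by_contra hne
    exact disjoint_left.1 (hdis i j hne) (hmem _ hv) (h ▸ hmem _ hw)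
  subst hij
  have hout : ∀ p s, colO P i s ≠ κ i p := by
    intro p
    have h := hκ.1 i p
    simp only [suppL, mem_filter, mem_univ, true_and] at h
    exact h
  dsimp only [edgeL, Set.mem_ofPred_eq] at hv hw
  rcases hv with ⟨s, -, rfl⟩ | rfl <;> rcases hw with ⟨t, -, rfl⟩ | rfl
  · simp only [colV] at h
    rw [colO_injective hp P i h]
  · exact absurd h (hout _ s)
  · exact absurd h.symm (hout _ t)
  · rfl

/-- Slot sets on the special line and on a possible heavy line, with the remaining lines free. -/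
theorem exists_fixed [NeZero q] (hp : Par u q) (P : Fin 10 → Coef q) (hP : PencilHyp P)
    {κ : Option (ZMod q) → Finset (Finset (Slot u)) → Pool u q} (hκ : IsGood (suppL P) κ)
    (MY : Option (ZMod q) → Finset (Slot u))
    (MP : Option (ZMod q) → Finset (Finset (Finset (Slot u))))
    (hline : ∀ i, (MY i).card + (MP i).card ≤ nn u - 1)
    (htot : ∑ i, ((MY i).card + (MP i).card) ≤ nn u + 2) :
    ∃ (Y₀ : Finset (ZMod q)) (A : Option (ZMod q) → Finset (Slot u))
      (Used Z : Finset (Pool u q)),
      (∀ i, (∀ y ∈ Y₀, i ≠ some y) → (A i).card = nn u - 1 ∧ Disjoint (A i) (MY i) ∧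
        piOf (A i) ∉ MP i ∧ cols P κ i (A i) ⊆ Used) ∧
      (∀ i j, (∀ y ∈ Y₀, i ≠ some y) → (∀ y ∈ Y₀, j ≠ some y) → i ≠ j →
        Disjoint (cols P κ i (A i)) (cols P κ j (A j))) ∧
      q ≤ Y₀.card + 1 ∧ Z.card ≤ 2 ∧ Used.card + nn u * Y₀.card = nn u * (q + 1) ∧
      (∀ c ∈ Used, c ∈ Z ∨ (∃ s, c = specCol s) ∨ c ∈ colours P Y₀ᶜ) ∧
      (∀ y ∈ Y₀, (Used ∩ colours P {y}).card + (MY (some y)).card ≤ 340000 * u) ∧
      ∀ S ⊆ Y₀, (Used ∩ colours P S).card + ∑ y ∈ S, (MY (some y)).card ≤ 600000 * u := by
  classical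
  have hu := hp.hu
  have hn : nn u = 400000 * u + 1 := rfl
  set m : Option (ZMod q) → ℕ := fun i => (MY i).card + (MP i).card with hm
  have hMS : ∀ S : Finset (ZMod q), ∑ y ∈ S, (MY (some y)).card ≤ ∑ y ∈ S, m (some y) :=
    fun S => sum_le_sum fun y _ => Nat.le_add_right _ _
  have hsumall : ∑ i, m i = m none + ∑ y, m (some y) := Fintype.sum_option _
  have htot' : ∑ i, m i ≤ nn u + 2 := htot
  obtain ⟨An, hAn1, hAn2, hAn3⟩ := exists_allowed hp _ _ (hline none)
  have hspec : ∀ (S : Finset (ZMod q)) (A : Finset (Slot u)),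
      cols P κ none A ∩ colours P S ⊆ {κ none (piOf A)} := by
    intro S A c hc
    obtain ⟨h1, h2⟩ := mem_inter.1 hc
    rcases mem_insert.1 h1 with h | h
    · exact mem_singleton.2 h
    · obtain ⟨s, -, rfl⟩ := mem_image.1 h
      obtain ⟨y, -, s', hs'⟩ := mem_colours.1 h2
      exact absurd hs' (col_ne_specCol P y s' s)
  by_cases hheavy : ∃ y₀, 240000 * u < m (some y₀)
  · -- a heavy line
    obtain ⟨y₀, hy₀⟩ := hheavy
    obtain ⟨A₀, hA₀1, hA₀2, hA₀3⟩ := exists_allowed hp _ _ (hline (some y₀))
    set Y₀ := (univ : Finset (ZMod q)).erase y₀ with hY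
    have hrest : ∀ S ⊆ Y₀, m none + m (some y₀) + ∑ y ∈ S, m (some y) ≤ nn u + 2 := by
      intro S hS
      have h1 := sum_le_sum_of_subset (f := fun y => m (some y)) hS
      have h2 := add_sum_erase univ (fun y => m (some y)) (mem_univ y₀)
      rw [← hY] at h2
      omega
    set U₀ := cols P κ (some y₀) A₀ with hU₀
    have hU₀c : U₀.card = nn u := card_cols hp hκ _ hA₀1
    obtain ⟨As, hAs1, hAs2, hAs3, hAs4⟩ := exists_special hp P κ hκ (MY none) (MP none)
      (by have := hrest ∅ (empty_subset _); simp only [hm, sum_empty] at this; simp only [hm] at hy₀; omega)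
      U₀ hU₀c.le (by
        intro s t hs ht
        have key : ∀ s, specCol (q := q) s ∈ U₀ → specCol (q := q) s = κ (some y₀) (piOf A₀) := by
          intro s hs
          rcases mem_insert.1 hs with h | h
          · exact h
          · obtain ⟨s', -, hs'⟩ := mem_image.1 h
            exact absurd hs' (col_ne_specCol P y₀ s' s)
        exact colO_injective hp P none ((key s hs).trans (key t ht).symm))
    refine ⟨Y₀, fun i => i.elim As fun _ => A₀, U₀ ∪ cols P κ none As,
      {κ (some y₀) (piOf A₀), κ none (piOf As)}, ?_, ?_, ?_, ?_, ?_, ?_, ?_, ?_⟩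
    · rintro (- | y) hi
      · exact ⟨hAs1, hAs2, hAs3, subset_union_right⟩
      · have : y = y₀ := by
          by_contra h
          exact hi y (mem_erase.2 ⟨h, mem_univ _⟩) rfl
        subst this
        exact ⟨hA₀1, hA₀2, hA₀3, subset_union_left⟩
    · have key : ∀ i : Option (ZMod q), (∀ y ∈ Y₀, i ≠ some y) → i = none ∨ i = some y₀ := by
        rintro (- | y) hi
        · exact Or.inl rfl
        · refine Or.inr (congrArg some ?_)
          by_contra h
          exact hi y (mem_erase.2 ⟨h, mem_univ _⟩) rfl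
      intro i j hi hj hne
      rcases key i hi with rfl | rfl <;> rcases key j hj with rfl | rfl
      · exact absurd rfl hne
      · exact hAs4
      · exact hAs4.symm
      · exact absurd rfl hne
    · rw [hY, card_erase_of_mem (mem_univ _), card_univ, ZMod.card]
      omega
    · exact card_le_two
    · rw [card_union_of_disjoint hAs4.symm, hU₀c, card_cols hp hκ _ hAs1, hY,
        card_erase_of_mem (mem_univ _), card_univ, ZMod.card]
      have h1 : q - 1 + 2 = q + 1 := by have := hp.hq.two_le; omega
      rw [← h1]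
      ring
    · intro c hc
      rcases mem_union.1 hc with hc | hc <;> rcases mem_insert.1 hc with h | h
      · exact Or.inl (by simp [h])
      · obtain ⟨s, -, rfl⟩ := mem_image.1 h
        exact Or.inr (Or.inr (mem_colours.2 ⟨y₀, by simp [hY], s, rfl⟩))
      · exact Or.inl (by simp [h])
      · obtain ⟨s, -, rfl⟩ := mem_image.1 h
        exact Or.inr (Or.inl ⟨s, rfl⟩)
    · intro y hy
      have h1 : (U₀ ∪ cols P κ none As) ∩ colours P {y} ⊆
          ({κ (some y₀) (piOf A₀), κ none (piOf As)} : Finset (Pool u q)) ∪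
            (colours P {y} ∩ colours P {y₀}) := by
        intro c hc
        obtain ⟨h, hcy⟩ := mem_inter.1 hc
        rcases mem_union.1 h with h | h
        · rcases mem_insert.1 h with h | h
          · exact mem_union_left _ (by simp [h])
          · obtain ⟨s, -, rfl⟩ := mem_image.1 h
            exact mem_union_right _ (mem_inter.2
              ⟨hcy, mem_colours.2 ⟨y₀, mem_singleton_self _, s, rfl⟩⟩)
        · have := hspec {y} As (mem_inter.2 ⟨h, hcy⟩)
          exact mem_union_left _ (by simp [mem_singleton.1 this])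
      have h2 := (card_le_card h1).trans ((card_union_le _ _).trans
        (Nat.add_le_add_right card_le_two _))
      have h3 : (colours (u := u) P {y} ∩ colours P {y₀}).card ≤ 90000 * u := by
        refine le_trans (card_le_card fun c hc => ?_) (shared_colours_le hp P hP (mem_erase.1 hy).1)
        simpa using hc
      have h4 := hrest {y} (singleton_subset_iff.2 hy)
      rw [sum_singleton] at h4
      simp only [hm] at h4 hy₀
      omega
    · intro S hS'
      have h1 : (U₀ ∪ cols P κ none As) ∩ colours P S ⊆ U₀ ∪ {κ none (piOf As)} := by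
        intro c hc
        obtain ⟨h, hcy⟩ := mem_inter.1 hc
        rcases mem_union.1 h with h | h
        · exact mem_union_left _ h
        · exact mem_union_right _ (hspec S As (mem_inter.2 ⟨h, hcy⟩))
      have h2 := (card_le_card h1).trans (card_union_le _ _)
      rw [hU₀c, card_singleton] at h2
      have h4 := hrest S hS'
      have h5 := hMS S
      omega
  · -- no heavy line
    push Not at hheavy
    refine ⟨univ, fun _ => An, cols P κ none An, {κ none (piOf An)}, ?_, ?_, ?_, ?_, ?_, ?_, ?_, ?_⟩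
    · rintro (- | y) hi
      · exact ⟨hAn1, hAn2, hAn3, subset_rfl⟩
      · exact absurd rfl (hi y (mem_univ _))
    · rintro (- | y) (- | z) hi hj hne
      · exact absurd rfl hne
      · exact absurd rfl (hj z (mem_univ _))
      · exact absurd rfl (hi y (mem_univ _))
      · exact absurd rfl (hi y (mem_univ _))
    · rw [card_univ, ZMod.card]; omega
    · simp
    · rw [card_cols hp hκ _ hAn1, card_univ, ZMod.card]; ring
    · intro c hc
      rcases mem_insert.1 hc with h | h
      · exact Or.inl (by simp [h])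
      · obtain ⟨s, -, rfl⟩ := mem_image.1 h
        exact Or.inr (Or.inl ⟨s, rfl⟩)
    · intro y _
      have h1 := card_le_card (hspec {y} An)
      rw [card_singleton] at h1
      have := hheavy y
      simp only [hm] at this
      omega
    · intro S _
      have h1 := card_le_card (hspec S An)
      rw [card_singleton] at h1
      have h2 := sum_le_sum_of_subset (f := fun y => m (some y)) (subset_univ S)
      have h3 := hMS S
      omega

/-- Under the counting property of `κ`, the lines through a point can choose slot sets avoiding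
the marks and together using every colour exactly once. -/
theorem exists_local_choice [NeZero q] (hp : Par u q) (P : Fin 10 → Coef q) (hP : PencilHyp P)
    (κ : Option (ZMod q) → Finset (Finset (Slot u)) → Pool u q)
    (hκ : IsGood (suppL P) κ)
    (MY : Option (ZMod q) → Finset (Slot u))
    (MP : Option (ZMod q) → Finset (Finset (Finset (Slot u))))
    (hline : ∀ i, (MY i).card + (MP i).card ≤ nn u - 1)
    (htot : ∑ i, ((MY i).card + (MP i).card) ≤ nn u + 2) :
    ∃ A : Option (ZMod q) → Finset (Slot u),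
      (∀ i, (A i).card = nn u - 1) ∧ (∀ i, Disjoint (A i) (MY i)) ∧
      (∀ i, piOf (A i) ∉ MP i) ∧ Set.InjOn (colV P κ) (edgeL A) := by
  classical
  obtain ⟨Y₀, Af, Used, Z, hfix, hfd, hY₀, hZ, hUc, hUZ, hS1, hS⟩ :=
    exists_fixed hp P hP hκ MY MP hline htot
  obtain ⟨Ay, hfree, hfree'⟩ := exists_free hp hP hκ MP htot hY₀ Used hZ hUc hUZ hS1 hS
  let A : Option (ZMod q) → Finset (Slot u) := fun i =>
    i.elim (Af none) fun y => if y ∈ Y₀ then Ay y else Af (some y)
  have hcase : ∀ i, (∃ y ∈ Y₀, i = some y ∧ A i = Ay y) ∨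
      ((∀ y ∈ Y₀, i ≠ some y) ∧ A i = Af i) := by
    rintro (- | y)
    · exact Or.inr ⟨fun y _ => (Option.some_ne_none y).symm, rfl⟩
    · by_cases hy : y ∈ Y₀
      · exact Or.inl ⟨y, hy, rfl, if_pos hy⟩
      · refine Or.inr ⟨fun z hz h => hy ?_, if_neg hy⟩
        rw [Option.some.inj h]; exact hz
  refine ⟨A, fun i => ?_, fun i => ?_, fun i => ?_, injOn_colV hp hκ A fun i j hne => ?_⟩
  · rcases hcase i with ⟨y, hy, rfl, e⟩ | ⟨hi, e⟩ <;> rw [e]
    exacts [(hfree y hy).1, (hfix i hi).1]
  · rcases hcase i with ⟨y, hy, rfl, e⟩ | ⟨hi, e⟩ <;> rw [e]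
    exacts [(hfree y hy).2.1, (hfix i hi).2.1]
  · rcases hcase i with ⟨y, hy, rfl, e⟩ | ⟨hi, e⟩ <;> rw [e]
    exacts [(hfree y hy).2.2.1, (hfix i hi).2.2.1]
  · rcases hcase i with ⟨y, hy, rfl, e⟩ | ⟨hi, e⟩ <;>
      rcases hcase j with ⟨z, hz, rfl, e'⟩ | ⟨hj, e'⟩ <;> rw [e, e']
    · exact hfree' y hy z hz fun h => hne (congrArg some h)
    · exact (hfree y hy).2.2.2.mono_right (hfix j hj).2.2.2
    · exact ((hfree z hz).2.2.2.mono_right (hfix i hi).2.2.2).symm
    · exact hfd i j hi hj hne

end Vale.Agent.P045.Ryser
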