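import Vale.Agent.P045.Ryser.Slack

/-!
# Choices of slot sets on single lines
-/

namespace Vale.Agent.P045.Ryser

open Finset

set_option maxRecDepth 20000
set_option linter.constructorNameAsVariable false

variable {u q : ℕ}

/-- The number of colours is the number of parts. -/
theorem card_pool [NeZero q] (hp : Par u q) : Fintype.card (Pool u q) = rr u q := by
  have h : 400000 * u * (q + 11) ≤ rr u q := by
    have h1 := hp.hlo
    unfold rr
    unfold nn at h1 ⊢
    nlinarith
  simp only [Fintype.card_sum, Fintype.card_prod, ZMod.card, Fintype.card_fin, fillN]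
  have h2 : 10 * 200 * (200 * u) * q + 10 * 200 * (200 * u) * 11 = 400000 * u * (q + 11) := by
    ring
  generalize 10 * 200 * (200 * u) * q = a at h2 ⊢
  generalize 10 * 200 * (200 * u) * 11 = b at h2 ⊢
  omega

/-- The number of slots. -/
theorem card_slot : Fintype.card (Slot u) = 800000 * u := by
  simp only [Fintype.card_prod, Fintype.card_fin, Fintype.card_bool]
  ring

/-- Slot sets with a common slot are determined by their partition. -/
theorem piOf_inj {A B : Finset (Slot u)} {a : Slot u} (ha : a ∈ A) (hb : a ∈ B)
    (h : piOf A = piOf B) : A = B := by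
  have h' : A ∈ piOf B := h ▸ by simp [piOf]
  simp only [piOf, mem_insert, mem_singleton] at h'
  rcases h' with h' | h'
  · exact h'
  · rw [h', mem_compl] at ha
    exact absurd hb ha

/-- A slot set of half size avoiding the marks of one line. -/
theorem exists_allowed (hp : Par u q) (M : Finset (Slot u))
    (N : Finset (Finset (Finset (Slot u)))) (h : M.card + N.card ≤ nn u - 1) :
    ∃ A : Finset (Slot u), A.card = nn u - 1 ∧ Disjoint A M ∧ piOf A ∉ N := by
  have hu := hp.hu
  have hn : nn u - 1 = 400000 * u := by unfold nn; omega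
  rw [hn] at h ⊢
  have hU : Mᶜ.card = 800000 * u - M.card := by rw [card_compl, card_slot]
  obtain ⟨C, hC, hCc⟩ := exists_subset_card_eq (s := Mᶜ) (n := 400000 * u - 1) (by omega)
  obtain ⟨c, hc⟩ := card_pos.1 (show 0 < C.card by omega)
  by_contra hno
  push Not at hno
  have h1 : (Mᶜ \ C).card ≤ N.card := by
    refine card_le_card_of_injOn (fun a => piOf (insert a C)) (fun a ha => ?_) ?_
    · obtain ⟨ha1, ha2⟩ := mem_sdiff.1 (mem_coe.1 ha)
      refine hno _ (by rw [card_insert_of_notMem ha2]; omega) (disjoint_left.2 fun x hx => ?_)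
      rcases mem_insert.1 hx with rfl | hx
      · exact mem_compl.1 ha1
      · exact mem_compl.1 (hC hx)
    · intro a ha b _ hab
      have he := piOf_inj (mem_insert_of_mem hc) (mem_insert_of_mem hc) hab
      have h' : a ∈ insert b C := he ▸ mem_insert_self a C
      exact (mem_insert.1 h').resolve_right (mem_sdiff.1 (mem_coe.1 ha)).2
  rw [card_sdiff_of_subset hC] at h1
  omega

/-- An injection of a small type into a finite set. -/
theorem exists_injective_into {α β : Type} [Fintype α] (s : Finset β)
    (h : Fintype.card α ≤ s.card) : ∃ f : α → β, Function.Injective f ∧ ∀ a, f a ∈ s := by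
  obtain ⟨e⟩ := Function.Embedding.nonempty_of_card_le (α := α) (β := {x // x ∈ s})
    (by rw [Fintype.card_coe]; exact h)
  exact ⟨fun a => (e a : β), Subtype.val_injective.comp e.injective, fun a => (e a).2⟩

/-- The two kinds of bit positions: prefix and attempt. -/
abbrev Pos (u : ℕ) : Type := Fin 2 × Fin u

/-- A slot set from a fixed part and one choice for each position. -/
def fill (core : Finset (Slot u)) (pick : Pos u → Bool → Finset (Slot u)) (w : Pos u → Bool) :
    Finset (Slot u) :=
  core ∪ univ.biUnion fun k => pick k (w k)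

/-- Different strings give different partitions when every choice has a slot of its own. -/
theorem piOf_fill_injective (core : Finset (Slot u)) (pick : Pos u → Bool → Finset (Slot u))
    (hne : core.Nonempty)
    (hsep : ∀ k b, ∃ s ∈ pick k b, s ∉ core ∧ ∀ k' b', s ∈ pick k' b' → k' = k ∧ b' = b) :
    Function.Injective fun w => piOf (fill core pick w) := by
  intro w w' h
  obtain ⟨c, hc⟩ := hne
  have he : fill core pick w = fill core pick w' :=
    piOf_inj (mem_union_left _ hc) (mem_union_left _ hc) h
  funext k
  obtain ⟨s, hs, hsc, hu⟩ := hsep k (w k)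
  have h' : s ∈ fill core pick w' :=
    he ▸ mem_union_right _ (mem_biUnion.2 ⟨k, mem_univ _, hs⟩)
  rcases mem_union.1 h' with h' | h'
  · exact absurd h' hsc
  · obtain ⟨k', -, hk⟩ := mem_biUnion.1 h'
    obtain ⟨e1, e2⟩ := hu k' (w' k') hk
    rw [e1] at e2
    exact e2.symm

/-- A string reaching all targets and avoiding the marked partitions. -/
theorem exists_attempt {ι : Type} {supp : ι → Finset (Pool u q)}
    {κ : ι → Finset (Finset (Slot u)) → Pool u q} (hκ : IsGood supp κ)
    (D : Finset ι) (hD : D.card ≤ 4001) (tgt : ι → Pool u q) (htgt : ∀ i ∈ D, tgt i ∈ supp i)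
    (core : ι → Finset (Slot u)) (pick : ι → Pos u → Bool → Finset (Slot u))
    (N : ι → Finset (Finset (Finset (Slot u)))) (hN : ∑ i ∈ D, (N i).card < 2 ^ u)
    (hinj : ∀ i ∈ D, Function.Injective fun w => piOf (fill (core i) (pick i) w)) :
    ∃ w : Pos u → Bool, ∀ i ∈ D, κ i (piOf (fill (core i) (pick i) w)) = tgt i ∧
      piOf (fill (core i) (pick i) w) ∉ N i := by
  classical
  let join : (Fin u → Bool) → (Fin u → Bool) → Pos u → Bool := fun p v k =>
    if k.1 = 0 then p k.2 else v k.2
  let Pre : ι → Finset (Fin u → Bool) := fun i =>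
    ((univ : Finset ((Fin u → Bool) × (Fin u → Bool))).filter fun x =>
      piOf (fill (core i) (pick i) (join x.1 x.2)) ∈ N i).image Prod.fst
  have hjoin : ∀ p v p' v', join p v = join p' v' → p = p' ∧ v = v' := fun p v p' v' h =>
    ⟨funext fun k => by simpa [join] using congrFun h (0, k),
      funext fun k => by simpa [join] using congrFun h (1, k)⟩
  have hPre : ∀ i ∈ D, (Pre i).card ≤ (N i).card := fun i hi => by
    refine card_image_le.trans (card_le_card_of_injOn
      (fun x => piOf (fill (core i) (pick i) (join x.1 x.2))) (fun x hx => ?_) ?_)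
    · exact (mem_filter.1 (mem_coe.1 hx)).2
    · intro x _ y _ h
      obtain ⟨e1, e2⟩ := hjoin _ _ _ _ (hinj i hi h)
      exact Prod.ext e1 e2
  obtain ⟨p, hpre⟩ : ∃ p, p ∉ D.biUnion Pre := by
    by_contra h
    push Not at h
    have h1 : Fintype.card (Fin u → Bool) ≤ ∑ i ∈ D, (N i).card := by
      rw [← card_univ]
      exact (card_le_card fun p _ => h p).trans (card_biUnion_le.trans (sum_le_sum hPre))
    rw [Fintype.card_fun, Fintype.card_bool, Fintype.card_fin] at h1
    omega
  have hsplit : ∀ i v, fill (core i) (pick i) (join p v) =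
      (core i ∪ univ.biUnion fun k => pick i (0, k) (p k)) ∪
        univ.biUnion fun k => pick i (1, k) (v k) := by
    intro i v
    ext s
    simp only [fill, mem_union, mem_biUnion, mem_univ, true_and, Prod.exists, Fin.exists_fin_two,
      join, if_true, show (1 : Fin 2) ≠ 0 by decide, if_false]
    rw [or_assoc]
  obtain ⟨v, hv⟩ := hκ.2 D hD tgt (fun i => core i ∪ univ.biUnion fun k => pick i (0, k) (p k))
    (fun i k => pick i (1, k)) htgt (fun i hi v v' h => by
      simp only [← hsplit i] at h
      exact (hjoin _ _ _ _ (hinj i hi h)).2)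
  refine ⟨join p v, fun i hi => ⟨by rw [hsplit i]; exact hv i hi, fun h => hpre ?_⟩⟩
  exact mem_biUnion.2 ⟨i, hi, mem_image.2 ⟨(p, v), mem_filter.2 ⟨mem_univ _, h⟩, rfl⟩⟩

/-- All marks are fewer than the strings. -/
theorem marks_lt_two_pow (hp : Par u q) : nn u + 2 < 2 ^ u := by
  obtain ⟨k, rfl⟩ : ∃ k, u = k + 20 := ⟨u - 20, by have := hp.hu; omega⟩
  have h := Nat.lt_two_pow_self (n := k)
  have := hp.hu
  rw [pow_add]
  unfold nn
  omega

/-- The colours used by a line with a given slot set. -/
def cols (P : Fin 10 → Coef q) (κ : Option (ZMod q) → Finset (Finset (Slot u)) → Pool u q)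
    (i : Option (ZMod q)) (A : Finset (Slot u)) : Finset (Pool u q) :=
  insert (κ i (piOf A)) (A.image (colO P i))

/-- A line with a slot set of half size uses `nn u` colours. -/
theorem card_cols [NeZero q] (hp : Par u q) {P : Fin 10 → Coef q}
    {κ : Option (ZMod q) → Finset (Finset (Slot u)) → Pool u q} (hκ : IsGood (suppL P) κ)
    (i : Option (ZMod q)) {A : Finset (Slot u)} (hA : A.card = nn u - 1) :
    (cols P κ i A).card = nn u := by
  have h : ∀ s, colO P i s ≠ κ i (piOf A) := by
    have h := hκ.1 i (piOf A)
    simp only [suppL, mem_filter, mem_univ, true_and] at h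
    exact h
  rw [cols, card_insert_of_notMem fun hm => by
      obtain ⟨s, -, hs⟩ := mem_image.1 hm
      exact h s hs,
    card_image_of_injective _ (colO_injective hp P i), hA]
  unfold nn
  omega

/-- On the special line, a slot set with a new colour on the partition avoiding few colours. -/
theorem exists_special [NeZero q] (hp : Par u q) (P : Fin 10 → Coef q)
    (κ : Option (ZMod q) → Finset (Finset (Slot u)) → Pool u q) (hκ : IsGood (suppL P) κ)
    (M : Finset (Slot u)) (N : Finset (Finset (Finset (Slot u))))
    (h : M.card + N.card ≤ 240000 * u) (Av : Finset (Pool u q)) (hAv : Av.card ≤ nn u)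
    (hAv1 : ∀ s t, specCol s ∈ Av → specCol t ∈ Av → s = t) :
    ∃ A : Finset (Slot u), A.card = nn u - 1 ∧ Disjoint A M ∧ piOf A ∉ N ∧
      Disjoint (cols P κ none A) Av := by
  classical
  have hu := hp.hu
  have hn : nn u - 1 = 400000 * u := by unfold nn; omega
  set U := Mᶜ.filter fun s => specCol (q := q) s ∉ Av with hU
  have hUc : 800000 * u ≤ U.card + M.card + 1 := by
    have h1 := card_filter_add_card_filter_not (s := Mᶜ) (fun s => specCol (q := q) s ∈ Av)
    have h2 : (Mᶜ.filter fun s => specCol (q := q) s ∈ Av).card ≤ 1 :=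
      card_le_one.2 fun a ha b hb => hAv1 a b (mem_filter.1 ha).2 (mem_filter.1 hb).2
    rw [card_compl, card_slot] at h1
    rw [hU]
    omega
  obtain ⟨f, hf, hfU⟩ := exists_injective_into (α := Pos u × Bool) U (by
    simp only [Fintype.card_prod, Fintype.card_fin, Fintype.card_bool]
    omega)
  set R := (univ : Finset (Pos u × Bool)).image f with hR
  have hRc : R.card = 4 * u := by
    rw [hR, card_image_of_injective _ hf, card_univ]
    simp only [Fintype.card_prod, Fintype.card_fin, Fintype.card_bool]
    ring
  obtain ⟨C, hC, hCc⟩ := exists_subset_card_eq (s := U \ R) (n := 400000 * u - 2 * u) (by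
    have := le_card_sdiff R U
    omega)
  obtain ⟨z, hz⟩ : ∃ z, z ∉ (univ.image (colO P none : Slot u → Pool u q)) ∪ Av := by
    by_contra hno
    push Not at hno
    have h1 := (card_le_card (s := (univ : Finset (Pool u q))) fun c _ => hno c).trans
      ((card_union_le _ _).trans (Nat.add_le_add_right card_image_le _))
    rw [card_univ, card_univ, card_pool hp, card_slot] at h1
    have h2 : nn u * 4 ≤ nn u * (q + 1) := Nat.mul_le_mul_left _ (by
      have := hp.hlo
      unfold nn at this
      omega)
    unfold rr at h1
    unfold nn at h1 h2 hAv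
    omega
  rw [mem_union, not_or] at hz
  let pick : Pos u → Bool → Finset (Slot u) := fun k b => {f (k, b)}
  have hnot : ∀ k b, f (k, b) ∉ C := fun k b hm =>
    (mem_sdiff.1 (hC hm)).2 (mem_image_of_mem _ (mem_univ _))
  have hinj : Function.Injective fun w => piOf (fill C pick w) := by
    refine piOf_fill_injective C pick (card_pos.1 (by omega)) fun k b => ?_
    refine ⟨f (k, b), mem_singleton_self _, hnot k b, fun k' b' hm => ?_⟩
    have := hf (mem_singleton.1 hm)
    simp only [Prod.mk.injEq] at this
    exact ⟨this.1.symm, this.2.symm⟩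
  obtain ⟨w, hw⟩ := exists_attempt hκ {none} (by simp) (fun _ => z)
    (fun i hi => by
      rw [mem_singleton] at hi
      subst hi
      simp only [suppL, mem_filter, mem_univ, true_and]
      exact fun s hs => hz.1 (hs ▸ mem_image_of_mem _ (mem_univ _)))
    (fun _ => C) (fun _ => pick) (fun _ => N) (by
      rw [sum_singleton]
      have := marks_lt_two_pow hp
      unfold nn at this
      omega)
    (fun _ _ => hinj)
  obtain ⟨hw1, hw2⟩ := hw none (mem_singleton_self _)
  have hsub : ∀ s ∈ fill C pick w, s ∈ U := by
    intro s hs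
    rcases mem_union.1 hs with hs | hs
    · exact (mem_sdiff.1 (hC hs)).1
    · obtain ⟨k, -, hk⟩ := mem_biUnion.1 hs
      rw [mem_singleton.1 hk]
      exact hfU _
  refine ⟨fill C pick w, ?_, disjoint_left.2 fun s hs => ?_, hw2, disjoint_left.2 fun c hc => ?_⟩
  · have e : (univ.biUnion fun k => pick k (w k)) = univ.image fun k => f (k, w k) := by
      ext s; simp [pick, eq_comm]
    rw [fill, e, card_union_of_disjoint, card_image_of_injective, card_univ, hCc, hn]
    · simp only [Fintype.card_prod, Fintype.card_fin]
      omega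
    · exact fun k k' hk => (Prod.mk.inj (hf hk)).1
    · rw [disjoint_right]
      intro s hs
      obtain ⟨k, -, rfl⟩ := mem_image.1 hs
      exact hnot _ _
  · exact mem_compl.1 (mem_filter.1 (hsub s hs)).1
  · rcases mem_insert.1 hc with rfl | hc
    · rw [hw1]; exact hz.2
    · obtain ⟨s, hs, rfl⟩ := mem_image.1 hc
      exact (mem_filter.1 (hsub s hs)).2

end Vale.Agent.P045.Ryser
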