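import Mathlib

/-!
# Choices from systems of finite sets

Disjoint choices of prescribed sizes, an exchange making prescribed elements used, and bijections
avoiding a sparse relation.
-/

namespace Vale.Agent.P045.Ryser

open Finset

/-- Hall's theorem with demands. -/
theorem exists_disjoint_choices {ι γ : Type} [DecidableEq ι] [DecidableEq γ] (Y : Finset ι)
    (avail : ι → Finset γ) (d : ι → ℕ)
    (h : ∀ S ⊆ Y, ∑ y ∈ S, d y ≤ (S.biUnion avail).card) :
    ∃ B : ι → Finset γ, (∀ y ∈ Y, B y ⊆ avail y ∧ (B y).card = d y) ∧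
      ∀ y ∈ Y, ∀ z ∈ Y, y ≠ z → Disjoint (B y) (B z) := by
  classical
  let t : (Σ y : {y // y ∈ Y}, Fin (d y.1)) → Finset γ := fun p => avail p.1.1
  have hall : ∀ s : Finset (Σ y : {y // y ∈ Y}, Fin (d y.1)), s.card ≤ (s.biUnion t).card := by
    intro s
    set S0 := s.image Sigma.fst with hS0
    set S := S0.image Subtype.val with hS
    have h1 : s ⊆ S0.sigma fun _ => univ :=
      fun p hp => mem_sigma.2 ⟨mem_image_of_mem _ hp, mem_univ _⟩
    have h2 : s.card ≤ ∑ y ∈ S, d y := by
      refine (card_le_card h1).trans (le_of_eq ?_)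
      rw [card_sigma, hS, sum_image fun a _ b _ hab => Subtype.ext hab]
      simp
    have h3 : S ⊆ Y := by
      intro y hy
      obtain ⟨z, -, rfl⟩ := mem_image.1 hy
      exact z.2
    have h4 : S.biUnion avail ⊆ s.biUnion t := by
      intro x hx
      obtain ⟨y, hy, hx⟩ := mem_biUnion.1 hx
      obtain ⟨z, hz, rfl⟩ := mem_image.1 hy
      obtain ⟨p, hp, rfl⟩ := mem_image.1 hz
      exact mem_biUnion.2 ⟨p, hp, hx⟩
    exact h2.trans ((h S h3).trans (card_le_card h4))
  obtain ⟨f, hf, hft⟩ := (all_card_le_biUnion_card_iff_exists_injective t).1 hall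
  refine ⟨fun y => if hy : y ∈ Y then univ.image fun k => f ⟨⟨y, hy⟩, k⟩ else ∅,
    fun y hy => ?_, fun y hy z hz hne => ?_⟩
  · simp only [dif_pos hy]
    refine ⟨image_subset_iff.2 fun k _ => hft _, ?_⟩
    rw [card_image_of_injective _ fun k k' hk => by simpa using hf hk]
    simp
  · simp only [dif_pos hy, dif_pos hz]
    rw [disjoint_left]
    intro x hx hx'
    obtain ⟨k, -, rfl⟩ := mem_image.1 hx
    obtain ⟨k', -, hk⟩ := mem_image.1 hx'
    exact hne (congrArg (fun p => p.1.1) (hf hk)).symm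

/-- Every element of `Must` can be made used, keeping sizes and disjointness. -/
theorem exists_exchange {ι γ : Type} [DecidableEq ι] [DecidableEq γ] (Y : Finset ι)
    (avail B : ι → Finset γ) (High Must : Finset γ) (hMust : Must ⊆ High)
    (hsub : ∀ y ∈ Y, B y ⊆ avail y)
    (hdisj : ∀ y ∈ Y, ∀ z ∈ Y, y ≠ z → Disjoint (B y) (B z))
    (hroom : ∀ y ∈ Y, High.card < (B y).card)
    (hcand : ∀ c ∈ Must, High.card ≤ (Y.filter fun y => c ∈ avail y).card) :
    ∃ B' : ι → Finset γ, (∀ y ∈ Y, B' y ⊆ avail y ∧ (B' y).card = (B y).card) ∧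
      (∀ y ∈ Y, ∀ z ∈ Y, y ≠ z → Disjoint (B' y) (B' z)) ∧
      ∀ c ∈ Must, ∃ y ∈ Y, c ∈ B' y := by
  classical
  set U := Must.filter fun c => ∀ y ∈ Y, c ∉ B y with hU
  let t : {c // c ∈ U} → Finset ι := fun c => Y.filter fun y => c.1 ∈ avail y
  have hall : ∀ s : Finset {c // c ∈ U}, s.card ≤ (s.biUnion t).card := by
    intro s
    rcases s.eq_empty_or_nonempty with rfl | ⟨c, hc⟩
    · simp
    · have h1 : s.card ≤ High.card := by
        rw [← card_image_of_injective s Subtype.val_injective]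
        refine card_le_card fun x hx => ?_
        obtain ⟨z, -, rfl⟩ := mem_image.1 hx
        exact hMust (mem_filter.1 z.2).1
      exact h1.trans ((hcand c.1 (mem_filter.1 c.2).1).trans
        (card_le_card (subset_biUnion_of_mem t hc)))
  obtain ⟨g, hg, hgt⟩ := (all_card_le_biUnion_card_iff_exists_injective t).1 hall
  let add : ι → Finset γ := fun y => ((univ : Finset {c // c ∈ U}).filter fun c => g c = y).image Subtype.val
  have hlow : ∀ y, ∃ R : Finset γ, y ∈ Y → R ⊆ B y \ High ∧ R.card = (add y).card := by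
    intro y
    by_cases hy : y ∈ Y
    · have h1 : (add y).card ≤ 1 := by
        refine card_image_le.trans (card_le_one.2 fun a ha b hb => hg ?_)
        rw [(mem_filter.1 ha).2, (mem_filter.1 hb).2]
      have h2 : 1 ≤ (B y \ High).card := by
        have := hroom y hy
        have := le_card_sdiff High (B y)
        omega
      obtain ⟨R, hR, hR'⟩ := exists_subset_card_eq (h1.trans h2)
      exact ⟨R, fun _ => ⟨hR, hR'⟩⟩
    · exact ⟨∅, fun h => absurd h hy⟩
  choose R hR using hlow
  have hadd : ∀ y, ∀ c ∈ add y, c ∈ U ∧ c ∈ avail y ∧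
      ∃ h : c ∈ U, g ⟨c, h⟩ = y := by
    intro y c hc
    obtain ⟨z, hz, rfl⟩ := mem_image.1 hc
    have hz' := (mem_filter.1 hz).2
    exact ⟨z.2, hz' ▸ (mem_filter.1 (hgt z)).2, z.2, hz'⟩
  refine ⟨fun y => (B y \ R y) ∪ add y, fun y hy => ⟨?_, ?_⟩, fun y hy z hz hne => ?_,
    fun c hc => ?_⟩
  · exact union_subset (sdiff_subset.trans (hsub y hy)) fun c hc => (hadd y c hc).2.1
  · obtain ⟨hRs, hRc⟩ := hR y hy
    have hd : Disjoint (B y \ R y) (add y) := disjoint_left.2 fun c h1 h2 =>
      (mem_filter.1 (hadd y c h2).1).2 y hy (mem_sdiff.1 h1).1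
    rw [card_union_of_disjoint hd, card_sdiff_of_subset (hRs.trans sdiff_subset), ← hRc]
    have := card_le_card (hRs.trans sdiff_subset)
    omega
  · rw [disjoint_left]
    intro c h1 h2
    rcases mem_union.1 h1 with h1 | h1 <;> rcases mem_union.1 h2 with h2 | h2
    · exact disjoint_left.1 (hdisj y hy z hz hne) (mem_sdiff.1 h1).1 (mem_sdiff.1 h2).1
    · exact (mem_filter.1 (hadd z c h2).1).2 y hy (mem_sdiff.1 h1).1
    · exact (mem_filter.1 (hadd y c h1).1).2 z hz (mem_sdiff.1 h2).1
    · obtain ⟨_, _, _, hy'⟩ := hadd y c h1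
      obtain ⟨_, _, _, hz'⟩ := hadd z c h2
      exact hne (hy'.symm.trans hz')
  · by_cases hused : ∀ y ∈ Y, c ∉ B y
    · have hcU : c ∈ U := mem_filter.2 ⟨hc, hused⟩
      refine ⟨g ⟨c, hcU⟩, (mem_filter.1 (hgt _)).1, mem_union_right _ ?_⟩
      exact mem_image.2 ⟨⟨c, hcU⟩, mem_filter.2 ⟨mem_univ _, rfl⟩, rfl⟩
    · push Not at hused
      obtain ⟨y, hy, hcy⟩ := hused
      exact ⟨y, hy, mem_union_left _ (mem_sdiff.2 ⟨hcy, fun h =>
        (mem_sdiff.1 ((hR y hy).1 h)).2 (hMust hc)⟩)⟩

/-- A bijection avoiding a relation with few partners on each side. -/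
theorem exists_avoiding_bijection {ι γ : Type} [DecidableEq ι] [DecidableEq γ] [Nonempty γ]
    (Y : Finset ι)
    (T : Finset γ) (bad : ι → Finset γ) (hcard : Y.card = T.card)
    (hrow : ∀ y ∈ Y, (T ∩ bad y).card + 4 ≤ T.card)
    (hcol : ∀ c ∈ T, (Y.filter fun y => c ∈ bad y).card ≤ 3) :
    ∃ β : ι → γ, Set.InjOn β (Y : Set ι) ∧ Y.image β = T ∧ ∀ y ∈ Y, β y ∉ bad y := by
  classical
  let t : {y // y ∈ Y} → Finset γ := fun y => T \ bad y.1
  have hall : ∀ s : Finset {y // y ∈ Y}, s.card ≤ (s.biUnion t).card := by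
    intro s
    rcases s.eq_empty_or_nonempty with rfl | ⟨y, hy⟩
    · simp
    · by_cases hfull : T ⊆ s.biUnion t
      · refine le_trans ?_ (card_le_card hfull)
        rw [← hcard, ← Fintype.card_coe Y]
        exact card_le_univ s
      · obtain ⟨c, hcT, hc⟩ := not_subset.1 hfull
        have h1 : s.card ≤ 3 := by
          rw [← card_image_of_injective s Subtype.val_injective]
          refine le_trans (card_le_card fun x hx => ?_) (hcol c hcT)
          obtain ⟨z, hz, rfl⟩ := mem_image.1 hx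
          exact mem_filter.2 ⟨z.2, by_contra fun h =>
            hc (mem_biUnion.2 ⟨z, hz, mem_sdiff.2 ⟨hcT, h⟩⟩)⟩
        have h2 : (t y).card ≤ (s.biUnion t).card := card_le_card (subset_biUnion_of_mem t hy)
        have h3 : (T \ bad y.1).card + (T ∩ bad y.1).card = T.card := card_sdiff_add_card_inter _ _
        have h4 := hrow y.1 y.2
        simp only [t] at h2 ⊢
        omega
  obtain ⟨f, hf, hft⟩ := (all_card_le_biUnion_card_iff_exists_injective t).1 hall
  refine ⟨fun y => if h : y ∈ Y then f ⟨y, h⟩ else Classical.arbitrary γ, ?_, ?_, fun y hy => ?_⟩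
  · intro y hy z hz he
    simp only [dif_pos (mem_coe.1 hy), dif_pos (mem_coe.1 hz)] at he
    exact congrArg Subtype.val (hf he)
  · refine eq_of_subset_of_card_le (image_subset_iff.2 fun y hy => ?_) ?_
    · simp only [dif_pos hy]
      exact (mem_sdiff.1 (hft _)).1
    · rw [card_image_of_injOn, hcard]
      intro y hy z hz he
      simp only [dif_pos (mem_coe.1 hy), dif_pos (mem_coe.1 hz)] at he
      exact congrArg Subtype.val (hf he)
  · simp only [dif_pos hy]
    exact (mem_sdiff.1 (hft _)).2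

end Vale.Agent.P045.Ryser
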