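import Vale.Agent.P045.Ryser.Local

/-!
# The plane, the line systems and the pencils at a point
-/

namespace Vale.Agent.P045.Ryser

open Finset

variable {u q : ℕ}

/-- The points: affine points and the slopes (the vertical direction is left out). -/
abbrev Pt (q : ℕ) : Type := (ZMod q × ZMod q) ⊕ ZMod q

/-- The lines: slope and intercept, or a vertical line (`some`), or the line at infinity. -/
abbrev Line (q : ℕ) : Type := (ZMod q × ZMod q) ⊕ Option (ZMod q)

/-- The lines through a point; `none` is its special line. -/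
def lineAt : Pt q → Option (ZMod q) → Line q
  | Sum.inl p, some y => Sum.inl (y, p.2 - p.1 * y)
  | Sum.inl p, none => Sum.inr (some p.1)
  | Sum.inr m, some y => Sum.inl (m, y)
  | Sum.inr _, none => Sum.inr none

/-- The slope parameter of the first index function of a family. -/
def lam (q : ℕ) (a : Fin 10) : ZMod q := ((2 * a.val : ℕ) : ZMod q)

/-- The slope parameter of the second index function of a family. -/
def lam' (q : ℕ) (a : Fin 10) : ZMod q := ((2 * a.val + 1 : ℕ) : ZMod q)

/-- The pencil data at a point. -/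
def coefAt : Pt q → Fin 10 → Coef q
  | Sum.inl p, a => ⟨lam q a - p.1, p.2, lam' q a - p.1, p.2⟩
  | Sum.inr m, a => ⟨1, lam q a * m, 1, lam' q a * m⟩

/-- The colour of a slot on a line. -/
def chiG : Line q → Slot u → Pool u q
  | Sum.inl l, s =>
      colVal s.1 s.2 (l.2 + lam q s.1.1.1 * l.1)
        (l.2 + lam' q s.1.1.1 * l.1 + (s.1.1.2.val : ZMod q))
  | Sum.inr _, s => specCol s

/-- The colours allowed for the partition vertices of a line. -/
noncomputable def suppG [NeZero q] (ℓ : Line q) : Finset (Pool u q) :=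
  haveI := Classical.decEq (Pool u q)
  Finset.univ.filter fun c => ∀ s, chiG ℓ s ≠ c

/-- At every point the pencil colours are the colours of the lines through it. -/
theorem chiG_lineAt (x : Pt q) (i : Option (ZMod q)) (s : Slot u) :
    chiG (lineAt x i) s = colO (coefAt x) i s := by
  rcases i with - | y
  · rcases x with p | m <;> rfl
  · rcases x with p | m
    · simp only [lineAt, chiG, colO, col, coefAt, psi1, psi2]
      congr 1 <;> ring
    · simp only [lineAt, chiG, colO, col, coefAt, psi1, psi2]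
      congr 1 <;> ring

/-- The pencil data at a point satisfy the hypotheses. -/
theorem pencilHyp_coefAt (hp : Par u q) (x : Pt q) : PencilHyp (coefAt x) := by
  have hq : q.Prime := hp.hq
  have : Fact q.Prime := ⟨hq⟩
  have hbig : 20 < q := by
    have := hp.hlo
    have : 1 ≤ nn u := by unfold nn; omega
    omega
  have hcast : ∀ k l : ℕ, k < q → l < q → (k : ZMod q) = (l : ZMod q) → k = l := by
    intro k l hk hl h
    have := congrArg ZMod.val h
    rwa [ZMod.val_natCast_of_lt hk, ZMod.val_natCast_of_lt hl] at this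
  rcases x with p | m
  · refine ⟨fun a => ?_, fun a b ha hb => ?_⟩
    · by_contra h
      simp only [coefAt, lam, lam', not_or, not_not, sub_eq_zero] at h
      have := hcast (2 * a.val) (2 * a.val + 1) (by omega) (by omega) (h.1.trans h.2.symm)
      omega
    · simp only [GoodFam, coefAt, lam, lam', not_and_or, not_not, sub_eq_zero] at ha hb
      refine Fin.ext ?_
      rcases ha with ha | ha <;> rcases hb with hb | hb <;>
        have := hcast _ _ (by omega) (by omega) (ha.trans hb.symm) <;> omega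
  · exact ⟨fun a => Or.inl one_ne_zero, fun a b ha _ => absurd ⟨one_ne_zero, one_ne_zero⟩ ha⟩

/-- The lines through a point are distinct. -/
theorem lineAt_injective (x : Pt q) : Function.Injective (lineAt x) := by
  intro i j h
  rcases x with p | m <;> rcases i with - | y <;> rcases j with - | z <;>
    simp_all [lineAt]

/-- Two points lie on a common line. -/
theorem exists_common_line (hp : Par u q) (x y : Pt q) :
    ∃ i j, lineAt x i = lineAt y j := by
  have : Fact q.Prime := ⟨hp.hq⟩
  rcases x with p | m <;> rcases y with p' | m'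
  · by_cases h : p.1 = p'.1
    · exact ⟨none, none, by simp [lineAt, h]⟩
    · have hne : p.1 - p'.1 ≠ 0 := sub_ne_zero.2 h
      refine ⟨some ((p.2 - p'.2) / (p.1 - p'.1)), some ((p.2 - p'.2) / (p.1 - p'.1)), ?_⟩
      simp only [lineAt, Sum.inl.injEq, Prod.mk.injEq, true_and]
      field_simp
      ring
  · exact ⟨some m', some (p.2 - p.1 * m'), by simp [lineAt]⟩
  · exact ⟨some (p'.2 - p'.1 * m), some m, by simp [lineAt]⟩
  · by_cases h : m = m'
    · exact ⟨none, none, by simp [lineAt]⟩
    · exact ⟨none, none, by simp [lineAt]⟩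

/-- The points on a line. -/
noncomputable def ptsOn [NeZero q] (ℓ : Line q) : Finset (Pt q) :=
  haveI := Classical.decPred fun x : Pt q => ∃ i, lineAt x i = ℓ
  Finset.univ.filter fun x => ∃ i, lineAt x i = ℓ

/-- Membership in the point set of a line. -/
theorem mem_ptsOn [NeZero q] {ℓ : Line q} {x : Pt q} : x ∈ ptsOn ℓ ↔ ∃ i, lineAt x i = ℓ := by
  simp [ptsOn]

/-- A sloped line has at most `q + 1` points, a special one at most `q`. -/
theorem card_ptsOn [NeZero q] :
    (∀ l : ZMod q × ZMod q, (ptsOn (Sum.inl l)).card ≤ q + 1) ∧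
      ∀ o : Option (ZMod q), (ptsOn (Sum.inr o)).card ≤ q := by
  classical
  constructor
  · intro l
    calc (ptsOn (Sum.inl l)).card
        ≤ ((univ.image fun a : ZMod q => (Sum.inl (a, l.2 + a * l.1) : Pt q)) ∪
            {(Sum.inr l.1 : Pt q)}).card := by
          refine card_le_card fun x hx => ?_
          obtain ⟨i, hi⟩ := mem_ptsOn.1 hx
          rcases x with p | m <;> rcases i with - | y <;> simp [lineAt] at hi
          · obtain ⟨rfl⟩ := hi
            refine mem_union_left _ (mem_image.2 ⟨p.1, mem_univ _, ?_⟩)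
            simp only [Sum.inl.injEq]
            exact Prod.ext rfl (by simp)
          · obtain ⟨rfl⟩ := hi
            exact mem_union_right _ (mem_singleton.2 rfl)
      _ ≤ q + 1 := by
          refine (card_union_le _ _).trans ?_
          simp only [card_singleton]
          have := card_image_le (s := (univ : Finset (ZMod q)))
            (f := fun a : ZMod q => (Sum.inl (a, l.2 + a * l.1) : Pt q))
          simp only [card_univ, ZMod.card] at this
          omega
  · intro o
    calc (ptsOn (Sum.inr o)).card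
        ≤ (univ.image fun b : ZMod q =>
            (match o with | some a => Sum.inl (a, b) | none => Sum.inr b : Pt q)).card := by
          refine card_le_card fun x hx => ?_
          obtain ⟨i, hi⟩ := mem_ptsOn.1 hx
          rcases x with p | m <;> rcases i with - | y <;> simp [lineAt] at hi <;> subst hi <;>
            refine mem_image.2 ?_
          · exact ⟨p.2, mem_univ _, rfl⟩
          · exact ⟨m, mem_univ _, rfl⟩
      _ ≤ q := card_image_le.trans (by simp [ZMod.card])

/-- A sloped line meets every line. -/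
theorem sloped_meets [NeZero q] (hp : Par u q) (l : ZMod q × ZMod q) (ℓ : Line q) :
    ∃ x, x ∈ ptsOn (Sum.inl l) ∧ x ∈ ptsOn ℓ := by
  have : Fact q.Prime := ⟨hp.hq⟩
  rcases ℓ with l' | o
  · by_cases h : l.1 = l'.1
    · exact ⟨Sum.inr l.1, mem_ptsOn.2 ⟨some l.2, rfl⟩,
        mem_ptsOn.2 ⟨some l'.2, by simp [lineAt, h]⟩⟩
    · have hne : l.1 - l'.1 ≠ 0 := sub_ne_zero.2 h
      refine ⟨Sum.inl ((l'.2 - l.2) / (l.1 - l'.1), l.2 + (l'.2 - l.2) / (l.1 - l'.1) * l.1),
        mem_ptsOn.2 ⟨some l.1, by simp [lineAt]⟩, mem_ptsOn.2 ⟨some l'.1, ?_⟩⟩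
      refine congrArg Sum.inl (Prod.ext rfl ?_)
      simp only
      field_simp
      ring
  · rcases o with - | a
    · exact ⟨Sum.inr l.1, mem_ptsOn.2 ⟨some l.2, rfl⟩, mem_ptsOn.2 ⟨none, rfl⟩⟩
    · exact ⟨Sum.inl (a, l.2 + a * l.1), mem_ptsOn.2 ⟨some l.1, by simp [lineAt]⟩,
        mem_ptsOn.2 ⟨none, rfl⟩⟩

/-- `f` lines cover at most `f * q + 1` points. -/
theorem card_cover_le [NeZero q] (hp : Par u q) (Full : Finset (Line q)) :
    (Full.biUnion ptsOn).card ≤ Full.card * q + 1 := by
  classical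
  by_cases h : ∃ l : ZMod q × ZMod q, (Sum.inl l : Line q) ∈ Full
  · obtain ⟨l, hl⟩ := h
    have hsub : Full.biUnion ptsOn ⊆ ptsOn (Sum.inl l) ∪
        (Full.erase (Sum.inl l)).biUnion fun ℓ => ptsOn ℓ \ ptsOn (Sum.inl l) := by
      intro x hx
      obtain ⟨ℓ, hℓ, hxℓ⟩ := mem_biUnion.1 hx
      by_cases hxl : x ∈ ptsOn (Sum.inl l)
      · exact mem_union_left _ hxl
      · refine mem_union_right _ (mem_biUnion.2 ⟨ℓ, mem_erase.2 ⟨?_, hℓ⟩,
          mem_sdiff.2 ⟨hxℓ, hxl⟩⟩)
        rintro rfl
        exact hxl hxℓ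
    have hone : ∀ ℓ ∈ Full.erase (Sum.inl l), (ptsOn ℓ \ ptsOn (Sum.inl l)).card ≤ q := by
      intro ℓ _
      obtain ⟨x, hx1, hx2⟩ := sloped_meets hp l ℓ
      have h1 : (ptsOn ℓ \ ptsOn (Sum.inl l)).card + 1 ≤ (ptsOn ℓ).card :=
        card_lt_card (Finset.ssubset_iff_of_subset sdiff_subset |>.2
          ⟨x, hx2, by simp [hx1]⟩)
      have h2 : (ptsOn ℓ).card ≤ q + 1 := by
        rcases ℓ with l' | o
        · exact card_ptsOn.1 l'
        · exact (card_ptsOn.2 o).trans (Nat.le_succ _)
      omega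
    have h3 := ((card_le_card hsub).trans (card_union_le _ _)).trans
      (Nat.add_le_add (card_ptsOn.1 l) (card_biUnion_le_card_mul _ _ q hone))
    rw [card_erase_of_mem hl] at h3
    have h4 : 1 ≤ Full.card := card_pos.2 ⟨_, hl⟩
    obtain ⟨k, hk⟩ := Nat.exists_eq_add_of_le h4
    rw [hk] at h3 ⊢
    simp only [Nat.add_sub_cancel_left] at h3
    nlinarith
  · refine (card_biUnion_le_card_mul _ _ q fun ℓ hℓ => ?_).trans (Nat.le_succ _)
    rcases ℓ with l | o
    · exact absurd ⟨l, hℓ⟩ h
    · exact card_ptsOn.2 o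

/-- Colours outside the image exist on every line. -/
theorem suppG_nonempty [NeZero q] (hp : Par u q) (ℓ : Line q) :
    (suppG (u := u) ℓ).Nonempty := by
  classical
  have hcard : Fintype.card (Slot u) < Fintype.card (Pool u q) := by
    have h1 : 20 * nn u < q := hp.hlo
    have hu := hp.hu
    have h2 : 2 < q := by unfold nn at h1; omega
    have hlay : 0 < Fintype.card (Lay u) := by
      refine Fintype.card_pos_iff.2 ⟨((0, 0), ⟨0, ?_⟩)⟩
      omega
    have h3 : Fintype.card (Lay u) * 2 < Fintype.card (Lay u) * q :=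
      Nat.mul_lt_mul_of_pos_left h2 hlay
    rw [Fintype.card_sum, Fintype.card_prod (Lay u) (ZMod q), ZMod.card,
      Fintype.card_prod (Lay u) Bool, Fintype.card_bool]
    omega
  obtain ⟨c, hc⟩ : ∃ c, ∀ s : Slot u, chiG ℓ s ≠ c := by
    by_contra h
    push Not at h
    exact absurd (Fintype.card_le_of_surjective _ h) (not_le.2 hcard)
  exact ⟨c, by simpa [suppG] using hc⟩

/-- Some point off the heavy lines has few marks. -/
theorem exists_light_point [NeZero q] (hp : Par u q) (c : Line q → ℕ)
    (hc : ∑ ℓ, c ℓ ≤ rr u q - 1) :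
    ∃ x : Pt q, (∀ i, c (lineAt x i) ≤ nn u - 1) ∧ ∑ i, c (lineAt x i) ≤ nn u + 2 := by
  classical
  set n := nn u with hn
  have hn0 : 0 < n := by simp [hn, nn]
  have hq : 20 * n < q := hp.hlo
  set Full : Finset (Line q) := univ.filter fun ℓ => n ≤ c ℓ with hFull
  set Res : Finset (Pt q) := univ \ Full.biUnion ptsOn with hRes
  have hRsum : ∑ ℓ ∈ Fullᶜ, c ℓ + n * Full.card < n * (q + 1) := by
    have h1 : n * Full.card ≤ ∑ ℓ ∈ Full, c ℓ := by
      have h := card_nsmul_le_sum Full c n fun ℓ hℓ => (mem_filter.1 hℓ).2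
      rw [smul_eq_mul, mul_comm] at h
      exact h
    have h2 := sum_add_sum_compl Full c
    have h3 : 0 < rr u q := by unfold rr; positivity
    have h4 : rr u q = n * (q + 1) := rfl
    omega
  have hf : Full.card ≤ q := by
    by_contra h
    have : n * (q + 1) ≤ n * Full.card := Nat.mul_le_mul_left _ (by omega)
    omega
  obtain ⟨k, hk⟩ : ∃ k, Full.card + k = q + 1 := ⟨q + 1 - Full.card, by omega⟩
  have hk1 : 1 ≤ k := by omega
  have hRes_card : q * k ≤ Res.card + 1 := by
    have h1 := card_cover_le hp Full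
    have h2 : Res.card + (Full.biUnion ptsOn).card = q * q + q := by
      rw [hRes, card_sdiff_add_card_eq_card (subset_univ _)]
      simp [Pt, ZMod.card]
    have h3 : q * (Full.card + k) = q * (q + 1) := by rw [hk]
    nlinarith
  have hoff : ∀ x ∈ Res, ∀ i, lineAt x i ∈ Fullᶜ := by
    intro x hx i
    rw [mem_compl]
    intro h
    exact (mem_sdiff.1 hx).2 (mem_biUnion.2 ⟨_, h, mem_ptsOn.2 ⟨i, rfl⟩⟩)
  have hlight : ∀ x ∈ Res, ∀ i, c (lineAt x i) ≤ n - 1 := by
    intro x hx i
    have := hoff x hx i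
    simp only [hFull, mem_compl, mem_filter, mem_univ, true_and, not_le] at this
    omega
  by_contra hno
  push Not at hno
  have hbig : ∀ x ∈ Res, n + 3 ≤ ∑ i, c (lineAt x i) := fun x hx => hno x (hlight x hx)
  have hlow : Res.card * (n + 3) ≤ ∑ x ∈ Res, ∑ i, c (lineAt x i) := by
    have h := card_nsmul_le_sum Res _ _ hbig
    rwa [smul_eq_mul] at h
  have hswap : ∑ x ∈ Res, ∑ i, c (lineAt x i) ≤ (q + 1) * ∑ ℓ ∈ Fullᶜ, c ℓ := by
    calc ∑ x ∈ Res, ∑ i, c (lineAt x i)
        = ∑ x ∈ Res, ∑ ℓ ∈ (univ : Finset (Option (ZMod q))).image (lineAt x), c ℓ := by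
          refine sum_congr rfl fun x _ => ?_
          rw [sum_image fun i _ j _ h => lineAt_injective x h]
      _ ≤ ∑ x ∈ Res, ∑ ℓ ∈ Fullᶜ.filter (fun ℓ => x ∈ ptsOn ℓ), c ℓ := by
          refine sum_le_sum fun x hx => sum_le_sum_of_subset fun ℓ hℓ => ?_
          obtain ⟨i, -, rfl⟩ := mem_image.1 hℓ
          exact mem_filter.2 ⟨hoff x hx i, mem_ptsOn.2 ⟨i, rfl⟩⟩
      _ = ∑ ℓ ∈ Fullᶜ, ∑ x ∈ Res.filter (fun x => x ∈ ptsOn ℓ), c ℓ := by
          refine sum_comm' fun x ℓ => ?_
          simp only [mem_filter]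
          tauto
      _ ≤ ∑ ℓ ∈ Fullᶜ, (q + 1) * c ℓ := by
          refine sum_le_sum fun ℓ _ => ?_
          rw [sum_const, smul_eq_mul]
          refine Nat.mul_le_mul_right _ ?_
          refine (card_le_card fun x hx => (mem_filter.1 hx).2).trans ?_
          rcases ℓ with l | o
          · exact card_ptsOn.1 l
          · exact (card_ptsOn.2 o).trans (Nat.le_succ _)
      _ = (q + 1) * ∑ ℓ ∈ Fullᶜ, c ℓ := by rw [mul_sum]
  have hM : (∑ ℓ ∈ Fullᶜ, c ℓ) + 1 ≤ n * k := by
    have : n * Full.card + n * k = n * (q + 1) := by rw [← mul_add, hk]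
    omega
  have hA : Res.card * (n + 3) + (q + 1) ≤ (q + 1) * (n * k) := by
    have := Nat.mul_le_mul_left (q + 1) hM
    nlinarith
  have hB : (q * k) * (n + 3) ≤ (Res.card + 1) * (n + 3) := Nat.mul_le_mul_right _ hRes_card
  have hC : (n + 1) * k ≤ 3 * q * k := Nat.mul_le_mul_right _ (by omega)
  nlinarith

end Vale.Agent.P045.Ryser
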