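import Vale.Agent.P045.Ryser.Params

/-!
# Existence of a colouring of the partition vertices with the target property

A union bound: for a fixed target on at most `4001` lines the attempts given by different bit
strings read different values of `κ`, so they are independent.
-/

namespace Vale.Agent.P045.Ryser

open Finset

variable {u q : ℕ}

/-- The colourings in a product set that miss every one of a family of disjoint targets are few:
a fraction at most `((R - 1) / R) ^ (number of attempts)`. -/
private theorem card_missing_le {ι P β K : Type} [Fintype ι] [DecidableEq ι] [Fintype P]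
    [DecidableEq P] [Fintype β] [DecidableEq β] [DecidableEq K] (supp : ι → Finset β)
    (D : Finset ι) (t : ι → β) (pi : ι → K → P) (ht : ∀ i ∈ D, t i ∈ supp i)
    (hpi : ∀ i ∈ D, Function.Injective (pi i)) (R : ℕ) (hR : ∏ i ∈ D, (supp i).card ≤ R)
    (S : Finset K) :
    ((Fintype.piFinset fun c : ι × P => supp c.1).filter
        fun f => ∀ k ∈ S, ∃ i ∈ D, f (i, pi i k) ≠ t i).card * R ^ S.card ≤
      (R - 1) ^ S.card * (Fintype.piFinset fun c : ι × P => supp c.1).card := by
  induction S using Finset.induction_on with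
  | empty => simp
  | @insert k S hk ih =>
    set B := (Fintype.piFinset fun c : ι × P => supp c.1).filter
      fun f => ∀ j ∈ S, ∃ i ∈ D, f (i, pi i j) ≠ t i with hB
    set B' := (Fintype.piFinset fun c : ι × P => supp c.1).filter
      fun f => ∀ j ∈ insert k S, ∃ i ∈ D, f (i, pi i j) ≠ t i with hB'
    set M := B.filter fun f => ∀ i ∈ D, f (i, pi i k) = t i with hM
    let g : (ι × P → β) → (ι × P → β) := fun f c =>
      if c.1 ∈ D ∧ c.2 = pi c.1 k then t c.1 else f c
    have hsplit : B'.card + M.card = B.card := by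
      rw [← Finset.card_filter_add_card_filter_not (s := B)
        (fun f => ∀ i ∈ D, f (i, pi i k) = t i), add_comm]
      congr 2
      ext f
      simp only [hB', hB, mem_filter, Finset.forall_mem_insert, not_forall, exists_prop]
      tauto
    have hmaps : ∀ f ∈ B, g f ∈ M := by
      intro f hf
      simp only [hB, mem_filter, Fintype.mem_piFinset] at hf
      simp only [hM, hB, mem_filter, Fintype.mem_piFinset]
      refine ⟨⟨fun c => ?_, fun j hj => ?_⟩, fun i hi => ?_⟩
      · by_cases hc : c.1 ∈ D ∧ c.2 = pi c.1 k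
        · simpa [g, hc] using ht c.1 hc.1
        · simpa [g, hc] using hf.1 c
      · obtain ⟨i, hi, hne⟩ := hf.2 j hj
        refine ⟨i, hi, ?_⟩
        have hjk : pi i j ≠ pi i k := fun h => hk (hpi i hi h ▸ hj)
        simpa [g, hjk] using hne
      · simp [g, hi]
    have hfib : ∀ h ∈ M, (B.filter fun f => g f = h).card ≤ R := by
      intro h _
      refine le_trans ?_ hR
      rw [← Finset.card_pi]
      refine Finset.card_le_card_of_injOn (fun f i _ => f (i, pi i k)) ?_ ?_
      · intro f hf
        simp only [coe_filter, hB, Set.mem_ofPred_eq, mem_filter, Fintype.mem_piFinset] at hf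
        simp only [Finset.mem_coe, Finset.mem_pi]
        exact fun i _ => hf.1.1 (i, pi i k)
      · intro f hf f' hf' heq
        simp only [coe_filter, Set.mem_ofPred_eq] at hf hf'
        funext c
        by_cases hc : c.1 ∈ D ∧ c.2 = pi c.1 k
        · obtain ⟨i, p⟩ := c
          obtain ⟨hi, hp⟩ := hc
          simp only at hi hp
          subst hp
          exact congrFun (congrFun heq i) hi
        · have h1 := congrFun (hf.2.trans hf'.2.symm) c
          simpa [g, hc] using h1
    have hBM : B.card ≤ R * M.card := by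
      rw [Finset.card_eq_sum_card_fiberwise hmaps, mul_comm]
      exact (Finset.sum_le_card_nsmul M _ R hfib).trans_eq (by simp)
    have hstep : B'.card * R ≤ (R - 1) * B.card := by
      rcases Nat.eq_zero_or_pos R with hR0 | hR0
      · simp [hR0]
      · obtain ⟨a, rfl⟩ : ∃ a, R = a + 1 := ⟨R - 1, by omega⟩
        simp only [Nat.add_sub_cancel]
        nlinarith
    rw [card_insert_of_notMem hk]
    calc B'.card * R ^ (S.card + 1) = B'.card * R * R ^ S.card := by ring
      _ ≤ (R - 1) * B.card * R ^ S.card := Nat.mul_le_mul_right _ hstep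
      _ = (R - 1) * (B.card * R ^ S.card) := by ring
      _ ≤ (R - 1) * ((R - 1) ^ S.card *
            (Fintype.piFinset fun c : ι × P => supp c.1).card) := Nat.mul_le_mul_left _ ih
      _ = (R - 1) ^ (S.card + 1) * _ := by ring

/-- `(1 + 1/a) ^ (a + 1) ≥ 2`, cleared of denominators. -/
private theorem two_mul_pow_le_succ_pow (a : ℕ) : 2 * a ^ (a + 1) ≤ (a + 1) ^ (a + 1) := by
  have key : ∀ n : ℕ, a ^ n + n * a ^ (n - 1) ≤ (a + 1) ^ n := by
    intro n
    induction n with
    | zero => simp
    | succ n ih =>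
      rcases n with _ | n
      · simp
      · simp only [Nat.add_sub_cancel] at ih ⊢
        rw [pow_succ (a + 1) (n + 1)]
        calc a ^ (n + 1 + 1) + (n + 1 + 1) * a ^ (n + 1)
            ≤ (a ^ (n + 1) + (n + 1) * a ^ n) * (a + 1) := by
              have : 0 ≤ (n + 1) * a ^ n := Nat.zero_le _
              ring_nf
              omega
          _ ≤ (a + 1) ^ (n + 1) * (a + 1) := Nat.mul_le_mul_right _ ih
  have := key (a + 1)
  simp only [Nat.add_sub_cancel] at this
  have h : a * a ^ a ≤ (a + 1) * a ^ a := Nat.mul_le_mul_right _ (Nat.le_succ a)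
  rw [pow_succ'] at this ⊢
  omega

/-- With enough attempts the union bound closes. -/
private theorem mul_pow_lt {R N m W : ℕ} (hR : 2 ≤ R) (hN : R * m ≤ N) (hW : W < 2 ^ m) :
    W * (R - 1) ^ N < R ^ N := by
  obtain ⟨a, rfl⟩ : ∃ a, R = a + 1 := ⟨R - 1, by omega⟩
  simp only [Nat.add_sub_cancel]
  obtain ⟨d, rfl⟩ := Nat.exists_eq_add_of_le hN
  calc W * a ^ ((a + 1) * m + d) < 2 ^ m * a ^ ((a + 1) * m + d) :=
        Nat.mul_lt_mul_of_pos_right hW (pow_pos (by omega) _)
    _ = (2 * a ^ (a + 1)) ^ m * a ^ d := by rw [pow_add, pow_mul, mul_pow]; ring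
    _ ≤ ((a + 1) ^ (a + 1)) ^ m * (a + 1) ^ d :=
        Nat.mul_le_mul (Nat.pow_le_pow_left (two_mul_pow_le_succ_pow a) m)
          (Nat.pow_le_pow_left (Nat.le_succ a) d)
    _ = (a + 1) ^ ((a + 1) * m + d) := by rw [← pow_mul, ← pow_add]

/-- A finite nonempty set of size at most `m` is the range of a map from `Fin m`. -/
private theorem exists_fin_cover {ι : Type} [DecidableEq ι] {D : Finset ι} (hD : D.Nonempty)
    {m : ℕ} (hm : D.card ≤ m) : ∃ e : Fin m → ι, univ.image e = D := by
  obtain ⟨i0, hi0⟩ := hD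
  refine ⟨fun k => if h : k.val < D.card then (D.equivFin.symm ⟨k.val, h⟩ : ι) else i0, ?_⟩
  ext i
  constructor
  · intro hi
    obtain ⟨k, -, rfl⟩ := Finset.mem_image.1 hi
    split <;> simp_all
  · intro hi
    refine Finset.mem_image.2 ⟨⟨(D.equivFin ⟨i, hi⟩).val, by omega⟩, mem_univ _, ?_⟩
    simp

/-- The union bound, for general parameters. -/
private theorem exists_good_of_bounds [NeZero q] {ι : Type} [Fintype ι] [DecidableEq ι]
    (supp : ι → Finset (Pool u q)) (hsupp : ∀ i, (supp i).Nonempty) {ci cp cs R m c : ℕ}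
    (hc : 4001 ≤ c)
    (hci : Fintype.card ι ≤ 2 ^ ci) (hcp : Fintype.card (Pool u q) ≤ 2 ^ cp)
    (hcs : Fintype.card (Slot u) ≤ cs) (hR1 : (2 ^ cp) ^ c ≤ R) (hR2 : 2 ≤ R)
    (hN : R * m ≤ 2 ^ u) (hm : (ci + cp + cs + cs * 2 * u) * c < m) :
    ∃ κ : ι → Finset (Finset (Slot u)) → Pool u q, IsGood supp κ := by
  classical
  have : Nonempty (Fin c) := ⟨⟨0, by omega⟩⟩
  let W := (Fin c → ι) × ((Fin c → Pool u q) × ((Fin c → (Finset (Slot u))) ×
    (Fin c → Fin u → Bool → (Finset (Slot u)))))
  let sel : (Fin c → ι) → ι → Fin c := fun e => Function.invFun e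
  let piW : W → ι → (Fin u → Bool) → Finset (Finset (Slot u)) := fun x i w =>
    piOf (x.2.2.1 (sel x.1 i) ∪ univ.biUnion fun k => x.2.2.2 (sel x.1 i) k (w k))
  let Ok : W → Prop := fun x => (∀ i ∈ univ.image x.1, x.2.1 (sel x.1 i) ∈ supp i) ∧
    (univ.image x.1).card ≤ c ∧ ∀ i ∈ univ.image x.1, Function.Injective (piW x i)
  set All := Fintype.piFinset fun c : ι × Finset (Finset (Slot u)) => supp c.1 with hAll
  let bad : W → Finset (ι × Finset (Finset (Slot u)) → Pool u q) := fun x =>
    All.filter fun f =>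
      Ok x ∧ ∀ w, ∃ i ∈ univ.image x.1, f (i, piW x i w) ≠ x.2.1 (sel x.1 i)
  have hcardW : Fintype.card W < 2 ^ m := by
    have hT : Fintype.card (Finset (Slot u)) ≤ 2 ^ cs := by
      simp only [Fintype.card_finset]
      exact Nat.pow_le_pow_right (by norm_num) hcs
    calc Fintype.card W
        = (Fintype.card ι) ^ c * ((Fintype.card (Pool u q)) ^ c *
            ((Fintype.card (Finset (Slot u))) ^ c *
              (((Fintype.card (Finset (Slot u))) ^ 2) ^ u) ^ c)) := by
          simp only [W, Fintype.card_prod, Fintype.card_fun, Fintype.card_fin, Fintype.card_bool]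
      _ ≤ (2 ^ ci) ^ c * ((2 ^ cp) ^ c *
            ((2 ^ cs) ^ c * (((2 ^ cs) ^ 2) ^ u) ^ c)) :=
          Nat.mul_le_mul (Nat.pow_le_pow_left hci _)
            (Nat.mul_le_mul (Nat.pow_le_pow_left hcp _)
              (Nat.mul_le_mul (Nat.pow_le_pow_left hT _)
                (Nat.pow_le_pow_left (Nat.pow_le_pow_left (Nat.pow_le_pow_left hT _) _) _)))
      _ = 2 ^ ((ci + cp + cs + cs * 2 * u) * c) := by
          simp only [← pow_mul, ← pow_add]
          congr 1
          ring
      _ < 2 ^ m := Nat.pow_lt_pow_right (by norm_num) hm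
  have hbad : ∀ x, (bad x).card * R ^ 2 ^ u ≤ (R - 1) ^ 2 ^ u * All.card := by
    intro x
    by_cases hx : Ok x
    · have h := card_missing_le (P := Finset (Finset (Slot u))) supp (univ.image x.1)
        (fun i => x.2.1 (sel x.1 i)) (piW x) hx.1 hx.2.2 R ?_
        (univ : Finset (Fin u → Bool))
      · have e : (univ : Finset (Fin u → Bool)).card = 2 ^ u := by simp
        rw [e] at h
        rw [hAll]
        refine le_trans (Nat.mul_le_mul_right _ (card_le_card fun g hg => ?_))
          (h.trans (le_of_eq (congrArg (fun s => (R - 1) ^ 2 ^ u * Finset.card s) ?_)))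
        · simp only [bad, hAll, mem_filter, Fintype.mem_piFinset] at hg ⊢
          exact ⟨hg.1, fun k _ => hg.2.2 k⟩
        · ext g
          simp only [Fintype.mem_piFinset]
      · refine le_trans (Finset.prod_le_pow_card _ _ (2 ^ cp) fun i _ =>
          (Finset.card_le_univ _).trans hcp) (le_trans ?_ hR1)
        exact Nat.pow_le_pow_right (Nat.one_le_two_pow) hx.2.1
    · simp [bad, hx]
  have hAllpos : 0 < All.card :=
    Finset.card_pos.2 (Fintype.piFinset_nonempty.2 fun c => hsupp c.1)
  have hlt : (univ.biUnion bad).card < All.card := by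
    by_contra hge
    have h1 : All.card * R ^ 2 ^ u ≤ Fintype.card W * (R - 1) ^ 2 ^ u * All.card :=
      calc All.card * R ^ 2 ^ u ≤ (univ.biUnion bad).card * R ^ 2 ^ u :=
            Nat.mul_le_mul_right _ (not_lt.1 hge)
        _ ≤ (∑ x, (bad x).card) * R ^ 2 ^ u := Nat.mul_le_mul_right _ card_biUnion_le
        _ = ∑ x, (bad x).card * R ^ 2 ^ u := by rw [Finset.sum_mul]
        _ ≤ ∑ _x : W, (R - 1) ^ 2 ^ u * All.card := sum_le_sum fun x _ => hbad x
        _ = Fintype.card W * (R - 1) ^ 2 ^ u * All.card := by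
            rw [sum_const, card_univ, smul_eq_mul]
            exact (mul_assoc _ _ _).symm
    rw [mul_comm All.card] at h1
    exact absurd (Nat.le_of_mul_le_mul_right h1 hAllpos)
      (not_le.2 (mul_pow_lt hR2 hN hcardW))
  obtain ⟨f, hfAll, hf⟩ : ∃ f ∈ All, f ∉ univ.biUnion bad := by
    by_contra h
    push Not at h
    exact absurd (card_le_card h) (not_le.2 hlt)
  refine ⟨fun i p => f (i, p), fun i p => Fintype.mem_piFinset.1 hfAll (i, p), ?_⟩
  intro D hD tgt core pick htgt hinj
  rcases D.eq_empty_or_nonempty with rfl | hne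
  · exact ⟨fun _ => false, by simp⟩
  obtain ⟨e, he⟩ := exists_fin_cover hne (hD.trans hc)
  let x : W := (e, fun k => tgt (e k), fun k => core (e k), fun k => pick (e k))
  have hsel : ∀ i ∈ D, e (sel e i) = i := by
    intro i hi
    rw [← he] at hi
    obtain ⟨k, -, hk⟩ := mem_image.1 hi
    exact Function.invFun_eq ⟨k, hk⟩
  have hpi : ∀ i ∈ D, piW x i = fun w : Fin u → Bool =>
      piOf (core i ∪ univ.biUnion fun k => pick i k (w k)) := by
    intro i hi
    funext w
    simp [piW, x, hsel i hi]
  by_contra hcon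
  push Not at hcon
  refine hf (mem_biUnion.2 ⟨x, mem_univ _, ?_⟩)
  have htx : ∀ i ∈ D, x.2.1 (sel x.1 i) = tgt i := fun i hi => by simp [x, hsel i hi]
  have hD' : univ.image x.1 = D := he
  simp only [bad, Ok, mem_filter, hD']
  refine ⟨hfAll, ⟨fun i hi => htx i hi ▸ htgt i hi, hD.trans hc,
    fun i hi => hpi i hi ▸ hinj i hi⟩,
    fun w => ?_⟩
  obtain ⟨i, hi, hne'⟩ := hcon w
  refine ⟨i, hi, ?_⟩
  rw [hpi i hi, htx i hi]
  exact hne'

/-- If every support is nonempty and there are at most `3 * q ^ 2` index values, a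
good `κ` exists for the parameters `u = 1000000`. -/
theorem exists_good [NeZero q] (hp : Par 1000000 q) {ι : Type} [Fintype ι] [DecidableEq ι]
    (hι : Fintype.card ι ≤ 3 * q ^ 2) (supp : ι → Finset (Pool 1000000 q))
    (hsupp : ∀ i, (supp i).Nonempty) :
    ∃ κ : ι → Finset (Finset (Slot 1000000)) → Pool 1000000 q, IsGood supp κ := by
  have hgen : ∀ u : ℕ, u ≤ 1000000 → q ≤ 40 * nn u → ∀ supp : ι → Finset (Pool u q),
      (∀ i, (supp i).Nonempty) → 344086 + 80 ≤ u →
      ∃ κ : ι → Finset (Finset (Slot u)) → Pool u q, IsGood supp κ := by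
    intro u hu hq' supp hsupp hlow
    have hnn : nn u ≤ 2 ^ 39 := by
      unfold nn
      calc 400000 * u + 1 ≤ 400000 * 1000000 + 1 := by omega
        _ ≤ 2 ^ 39 := by norm_num
    have hq : q ≤ 2 ^ 45 := by
      calc q ≤ 40 * nn u := hq'
        _ ≤ 40 * 2 ^ 39 := by omega
        _ ≤ 2 ^ 45 := by norm_num
    refine exists_good_of_bounds supp hsupp (c := 4001) le_rfl (ci := 92) (cp := 86) (cs := 2 ^ 40)
      (R := 2 ^ (86 * 4001)) (m := 2 ^ 80) ?_ ?_ ?_ ?_ ?_ ?_ ?_
    · calc Fintype.card ι ≤ 3 * q ^ 2 := hι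
        _ ≤ 3 * (2 ^ 45) ^ 2 := Nat.mul_le_mul_left _ (Nat.pow_le_pow_left hq 2)
        _ ≤ 2 ^ 92 := by norm_num
    · have hr : rr u q ≤ 2 ^ 85 := by
        calc rr u q = nn u * (q + 1) := rfl
          _ ≤ 2 ^ 39 * (2 ^ 45 + 1) := Nat.mul_le_mul hnn (by omega)
          _ ≤ 2 ^ 85 := by norm_num
      have hl : 400000 * u * (q + 11) ≤ 2 ^ 85 := by
        calc 400000 * u * (q + 11) ≤ 2 ^ 39 * (2 ^ 45 + 11) :=
              Nat.mul_le_mul (by unfold nn at hnn; omega) (by omega)
          _ ≤ 2 ^ 85 := by norm_num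
      have hcard : Fintype.card (Pool u q)
          = 400000 * u * (q + 11) + (rr u q - 400000 * u * (q + 11)) := by
        simp only [Fintype.card_sum, Fintype.card_prod, Fintype.card_fin, ZMod.card, fillN]
        ring
      rw [hcard]
      omega
    · simp only [Fintype.card_prod, Fintype.card_fin, Fintype.card_bool]
      omega
    · rw [← pow_mul]
    · calc (2 : ℕ) = 2 ^ 1 := rfl
        _ ≤ _ := Nat.pow_le_pow_right (by norm_num) (by norm_num)
    · rw [← pow_add]
      exact Nat.pow_le_pow_right (by norm_num) (by omega)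
    · calc (92 + 86 + 2 ^ 40 + 2 ^ 40 * 2 * u) * 4001
          ≤ (92 + 86 + 2 ^ 40 + 2 ^ 40 * 2 * 1000000) * 4001 := by
            gcongr
        _ < 2 ^ 80 := by norm_num
  exact hgen 1000000 le_rfl hp.hhi supp hsupp (by omega)

end Vale.Agent.P045.Ryser
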