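import Vale.Agent.P045.Ryser.Assemble
import Vale.Agent.P045.Ryser.Global
import Vale.Agent.P045.Ryser.Random

/-!
# The hypergraph
-/

namespace Vale.Agent.P045.Ryser

open Finset

variable {u q : ℕ}

/-- The vertices: a line with a slot, or with a partition of the slots. -/
abbrev GVert (u q : ℕ) : Type := Line q × (Slot u ⊕ Finset (Finset (Slot u)))

/-- The colour of a vertex. -/
def colG (κ : Line q → Finset (Finset (Slot u)) → Pool u q) : GVert u q → Pool u q
  | (ℓ, Sum.inl s) => chiG ℓ s
  | (ℓ, Sum.inr p) => κ ℓ p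

/-- The vertices of the edge given by a point and a choice of slot sets. -/
noncomputable def edgeG [NeZero q] (x : Pt q) (A : Option (ZMod q) → Finset (Slot u)) :
    Finset (GVert u q) :=
  (Finset.univ : Finset (Option (ZMod q))).biUnion fun i =>
    ((A i).disjSum {piOf (A i)}).image fun z => (lineAt x i, z)

/-- Membership in an edge. -/
theorem mem_edgeG [NeZero q] {x : Pt q} {A : Option (ZMod q) → Finset (Slot u)} {v : GVert u q} :
    v ∈ edgeG x A ↔ ∃ i, ∃ z ∈ (A i).disjSum {piOf (A i)}, (lineAt x i, z) = v := by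
  simp [edgeG]

/-- The size of an edge. -/
theorem card_edgeG [NeZero q] (x : Pt q) (A : Option (ZMod q) → Finset (Slot u))
    (hA : ∀ i, (A i).card = nn u - 1) : (edgeG x A).card = rr u q := by
  classical
  rw [edgeG, card_biUnion]
  · have h : ∀ i ∈ (univ : Finset (Option (ZMod q))),
        (((A i).disjSum {piOf (A i)}).image fun z => (lineAt x i, z)).card = nn u := by
      intro i _
      rw [card_image_of_injective _ (Prod.mk_right_injective _), card_disjSum, hA,
        card_singleton]
      simp [nn]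
    refine (sum_congr rfl h).trans ?_
    rw [sum_const, card_univ, Fintype.card_option, ZMod.card, smul_eq_mul, rr, mul_comm]
  · intro i _ j _ hij
    rw [Function.onFun, disjoint_left]
    intro v hv hv'
    obtain ⟨z, -, rfl⟩ := mem_image.1 hv
    obtain ⟨z', -, h⟩ := mem_image.1 hv'
    exact hij (lineAt_injective x (congrArg Prod.fst h).symm)

/-- Slot sets of half size that are disjoint are complementary. -/
theorem piOf_eq_of_disjoint (A B : Finset (Slot u)) (hA : A.card = nn u - 1)
    (hB : B.card = nn u - 1) (h : Disjoint A B) : piOf A = piOf B := by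
  have hc : Fintype.card (Slot u) = (nn u - 1) + (nn u - 1) := by
    rw [Fintype.card_prod, Fintype.card_bool, Fintype.card_prod, Fintype.card_prod,
      Fintype.card_fin, Fintype.card_fin, Fintype.card_fin]
    unfold nn
    omega
  have hBc : B = Aᶜ := by
    refine eq_of_subset_of_card_le ?_ ?_
    · intro a ha
      rw [mem_compl]
      exact fun h' => disjoint_left.1 h h' ha
    · rw [card_compl, hc, hA, hB]
      omega
  rw [hBc]
  simp [piOf, Finset.pair_comm]

/-- Membership in the support of a line. -/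
theorem mem_suppG [NeZero q] {ℓ : Line q} {c : Pool u q} :
    c ∈ suppG ℓ ↔ ∀ s, chiG ℓ s ≠ c := by
  simp [suppG]

/-- Membership in the support of a line of a pencil. -/
theorem mem_suppL [NeZero q] {P : Fin 10 → Coef q} {i : Option (ZMod q)} {c : Pool u q} :
    c ∈ suppL P i ↔ ∀ s, colO P i s ≠ c := by
  simp [suppL]

set_option maxRecDepth 20000 in
/-- A good colouring is good on the lines through each point. -/
theorem isGood_restrict [NeZero q] (x : Pt q)
    (κ : Line q → Finset (Finset (Slot u)) → Pool u q) (hκ : IsGood (fun ℓ => suppG ℓ) κ) :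
    IsGood (suppL (coefAt x)) (fun i => κ (lineAt x i)) := by
  obtain ⟨h1, h2⟩ := hκ
  refine ⟨?_, ?_⟩
  · intro i p
    rw [mem_suppL]
    intro s
    have h := h1 (lineAt x i) p
    rw [mem_suppG] at h
    rw [← chiG_lineAt]
    exact h s
  · intro D hD tgt core pick htgt hinj
    have hl := lineAt_injective x
    obtain ⟨w, hw⟩ := h2 (D.image (lineAt x)) (card_image_le.trans hD)
      (fun ℓ => tgt (Function.invFun (lineAt x) ℓ))
      (fun ℓ => core (Function.invFun (lineAt x) ℓ))
      (fun ℓ => pick (Function.invFun (lineAt x) ℓ))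
      (fun ℓ hℓ => by
        rw [mem_image] at hℓ
        obtain ⟨i, hi, rfl⟩ := hℓ
        rw [mem_suppG]
        intro s
        rw [chiG_lineAt, Function.leftInverse_invFun hl i]
        have h := htgt i hi
        rw [mem_suppL] at h
        exact h s)
      (fun ℓ hℓ => by
        rw [mem_image] at hℓ
        obtain ⟨i, hi, rfl⟩ := hℓ
        simp only [Function.leftInverse_invFun hl i]
        exact hinj i hi)
    refine ⟨w, fun i hi => ?_⟩
    have h := hw (lineAt x i) (mem_image_of_mem _ hi)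
    simp only [Function.leftInverse_invFun hl i] at h
    exact h

/-- The counterexample, over any parameters with a good colouring. -/
theorem exists_hypergraph [NeZero q] (hp : Par u q)
    (κ : Line q → Finset (Finset (Slot u)) → Pool u q) (hκ : IsGood (fun ℓ => suppG ℓ) κ)
    (part : GVert u q → Fin (rr u q))
    (hpart : ∀ v w, part v = part w → colG κ v = colG κ w) :
    ∃ H : Finset (Finset (GVert u q)), H.Nonempty ∧
      (∀ e ∈ H, e.card = rr u q ∧ Set.InjOn part (e : Set (GVert u q))) ∧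
      (∀ e ∈ H, ∀ f ∈ H, ∃ v ∈ e, v ∈ f) ∧
      ∀ C : Finset (GVert u q), (∀ e ∈ H, ∃ v ∈ C, v ∈ e) → rr u q ≤ C.card := by
  classical
  set H : Finset (Finset (GVert u q)) := univ.filter fun e => ∃ x A,
    (∀ i, (A i).card = nn u - 1) ∧ edgeG x A = e ∧
      Set.InjOn part (e : Set (GVert u q)) with hH
  have hmem : ∀ e ∈ H, ∃ x A, (∀ i, (A i).card = nn u - 1) ∧ edgeG x A = e ∧
      Set.InjOn part (e : Set (GVert u q)) := fun e he => (mem_filter.1 he).2
  have key : ∀ C : Finset (GVert u q), C.card ≤ rr u q - 1 →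
      ∃ e ∈ H, ∀ v ∈ C, v ∉ e := by
    intro C hC
    obtain ⟨x, hx1, hx2⟩ := exists_light_point hp
      (fun ℓ => (C.filter fun v => v.1 = ℓ).card) (by
        rw [← card_eq_sum_card_fiberwise (fun v _ => mem_univ _)]
        exact hC)
    obtain ⟨MY, hMYmem⟩ : ∃ MY : Option (ZMod q) → Finset (Slot u),
        ∀ i s, s ∈ MY i ↔ (lineAt x i, Sum.inl s) ∈ C :=
      ⟨fun i => univ.filter fun s => (lineAt x i, Sum.inl s) ∈ C, fun i s => by simp⟩
    obtain ⟨MP, hMPmem⟩ : ∃ MP : Option (ZMod q) → Finset (Finset (Finset (Slot u))),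
        ∀ i p, p ∈ MP i ↔ (lineAt x i, Sum.inr p) ∈ C :=
      ⟨fun i => univ.filter fun p => (lineAt x i, Sum.inr p) ∈ C, fun i p => by simp⟩
    have hsum : ∀ i, (MY i).card + (MP i).card ≤ (C.filter fun v => v.1 = lineAt x i).card := by
      intro i
      rw [← card_disjSum, ← card_image_of_injective _
        (Prod.mk_right_injective (lineAt x i))]
      refine card_le_card fun v hv => ?_
      rw [mem_image] at hv
      obtain ⟨z, hz, rfl⟩ := hv
      rw [mem_filter]
      rw [mem_disjSum] at hz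
      rcases hz with ⟨s, hs, rfl⟩ | ⟨p, hp', rfl⟩
      · exact ⟨(hMYmem i s).1 hs, rfl⟩
      · exact ⟨(hMPmem i p).1 hp', rfl⟩
    have hloc := isGood_restrict x κ hκ
    obtain ⟨A, hA, hAY, hAP, hinj⟩ := exists_local_choice hp (coefAt x) (pencilHyp_coefAt hp x)
      (fun i => κ (lineAt x i)) hloc MY MP (fun i => (hsum i).trans (hx1 i))
      ((sum_le_sum fun i _ => hsum i).trans hx2)
    refine ⟨edgeG x A, mem_filter.2 ⟨mem_univ _, x, A, hA, rfl, ?_⟩, ?_⟩
    · intro v hv w hw hvw
      obtain ⟨i, z, hz, rfl⟩ := mem_edgeG.1 (mem_coe.1 hv)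
      obtain ⟨j, z', hz', rfl⟩ := mem_edgeG.1 (mem_coe.1 hw)
      have hl : ∀ (i : Option (ZMod q)) z, z ∈ (A i).disjSum {piOf (A i)} →
          ((i, z) : LVert u q) ∈ edgeL A ∧
            colG κ (lineAt x i, z) = colV (coefAt x) (fun i => κ (lineAt x i)) (i, z) := by
        intro i z hz
        rcases mem_disjSum.1 hz with ⟨s, hs, rfl⟩ | ⟨p, hp', rfl⟩
        · exact ⟨Or.inl ⟨s, hs, rfl⟩, chiG_lineAt x i s⟩
        · rw [mem_singleton.1 hp']
          exact ⟨Or.inr rfl, rfl⟩
      have h := hinj (hl i z hz).1 (hl j z' hz').1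
        (((hl i z hz).2.symm.trans (hpart _ _ hvw)).trans (hl j z' hz').2)
      obtain ⟨rfl, rfl⟩ := Prod.mk.injEq .. ▸ h
      rfl
    · intro v hv hve
      obtain ⟨i, z, hz, rfl⟩ := mem_edgeG.1 hve
      rw [mem_disjSum] at hz
      rcases hz with ⟨s, hs, rfl⟩ | ⟨p, hp', rfl⟩
      · exact disjoint_left.1 (hAY i) hs ((hMYmem i s).2 hv)
      · rw [mem_singleton] at hp'
        rw [hp'] at hv
        exact hAP i ((hMPmem i _).2 hv)
  refine ⟨H, ?_, ?_, ?_, ?_⟩
  · obtain ⟨e, he, -⟩ := key ∅ (by simp)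
    exact ⟨e, he⟩
  · intro e he
    obtain ⟨x, A, hA, rfl, hinj⟩ := hmem e he
    exact ⟨card_edgeG x A hA, hinj⟩
  · intro e he f hf
    obtain ⟨x, A, hA, rfl, -⟩ := hmem e he
    obtain ⟨y, B, hB, rfl, -⟩ := hmem f hf
    obtain ⟨i, j, hij⟩ := exists_common_line hp x y
    by_cases h : Disjoint (A i) (B j)
    · refine ⟨(lineAt x i, Sum.inr (piOf (A i))), mem_edgeG.2 ⟨i, _, ?_, rfl⟩,
        mem_edgeG.2 ⟨j, Sum.inr (piOf (A i)), ?_, by rw [hij]⟩⟩
      · simp
      · simp [piOf_eq_of_disjoint _ _ (hA i) (hB j) h]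
    · obtain ⟨s, hs, hs'⟩ := not_disjoint_iff.1 h
      exact ⟨(lineAt x i, Sum.inl s), mem_edgeG.2 ⟨i, _, by simp [hs], rfl⟩,
        mem_edgeG.2 ⟨j, Sum.inl s, by simp [hs'], by rw [hij]⟩⟩
  · intro C hC
    by_contra hlt
    obtain ⟨e, he, hno⟩ := key C (by omega)
    obtain ⟨v, hv, hve⟩ := hC e he
    exact hno v hv hve

end Vale.Agent.P045.Ryser
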