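import Vale.Agent.P045.Ryser.Slack

/-!
# Bundle edges and their arrangement into stars
-/

namespace Vale.Agent.P045.Ryser

open Finset

variable {u q : ℕ}

/-- The two slots of the bundle edge `(g, y)` in layer `l`, the second slot at `y` and the first
slot at `rho y`, are unmarked, the value is not split and the colour is not forbidden. -/
def Usable (P : Fin 10 → Coef q) (MY : Option (ZMod q) → Finset (Slot u))
    (Z : Finset (Pool u q)) (e : Grp × ZMod q) (l : Fin (200 * u)) : Prop :=
  (psi1 (P e.1.1) (rho (P e.1.1) e.1.2 e.2)).val / 8 ≠ l.val ∧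
    ((e.1, l), true) ∉ MY (some e.2) ∧
    ((e.1, l), false) ∉ MY (some (rho (P e.1.1) e.1.2 e.2)) ∧
    Sum.inl ((e.1, l), psi1 (P e.1.1) (rho (P e.1.1) e.1.2 e.2)) ∉ Z

theorem rho_bijective [NeZero q] (hq : q.Prime) {c : Coef q} (h1 : c.A1 ≠ 0) (h2 : c.A2 ≠ 0)
    (j : Fin 200) : Function.Bijective (rho c j) := by
  have : Fact q.Prime := ⟨hq⟩
  refine Finite.injective_iff_bijective.1 fun x y h => ?_
  unfold rho at h
  exact mul_left_cancel₀ (mul_ne_zero (inv_ne_zero h1) h2) (add_right_cancel h)

/-- A line is sent to different lines by the different members of a good family. -/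
theorem rho_member_injective [NeZero q] (hq : q.Prime) (h200 : 200 ≤ q) {c : Coef q}
    (h1 : c.A1 ≠ 0) {x x' : ZMod q} {j j' : Fin 200} (hx : x = x')
    (h : rho c j x = rho c j' x') : j = j' := by
  have : Fact q.Prime := ⟨hq⟩
  subst hx
  unfold rho at h
  have h' := mul_left_cancel₀ (inv_ne_zero h1) (add_left_cancel h)
  have hval : ((j.val : ℕ) : ZMod q).val = ((j'.val : ℕ) : ZMod q).val :=
    congrArg ZMod.val (add_left_cancel h')
  have hj := j.isLt
  have hj' := j'.isLt
  rw [ZMod.val_natCast_of_lt (by omega), ZMod.val_natCast_of_lt (by omega)] at hval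
  exact Fin.ext hval

/-- Every line other than the excluded one has a bundle edge with `4 * u` usable layers. -/
theorem exists_good_edge [NeZero q] (hp : Par u q) (P : Fin 10 → Coef q) (hP : PencilHyp P)
    (MY : Option (ZMod q) → Finset (Slot u)) (Z : Finset (Pool u q)) (hZ : Z.card ≤ 2)
    (htot : ∑ i, (MY i).card ≤ nn u + 2) (Y₀ : Finset (ZMod q)) (hY₀ : q ≤ Y₀.card + 1)
    (y : ZMod q) (hy : y ∈ Y₀) :
    ∃ (g : Grp) (x : ZMod q) (R : Finset (Fin (200 * u))),
      GoodFam P g.1 ∧ rho (P g.1) g.2 x ≠ x ∧ x ∈ Y₀ ∧ rho (P g.1) g.2 x ∈ Y₀ ∧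
      (y = x ∨ y = rho (P g.1) g.2 x) ∧ R.card = 4 * u ∧ ∀ l ∈ R, Usable P MY Z (g, x) l := by
  classical
  have hu := hp.hu
  have hq := hp.hq
  have h200 : 200 ≤ q := by have := hp.hlo; simp only [nn] at this; omega
  have : Fact q.Prime := ⟨hq⟩
  -- the excluded targets
  set Bad : Finset (ZMod q) := insert y Y₀ᶜ with hBad
  have hBad2 : Bad.card ≤ 2 := by
    have h1 := Finset.card_insert_le y Y₀ᶜ
    rw [← hBad, Finset.card_compl, ZMod.card] at h1
    omega
  set E : Finset (Grp × ZMod q) := Finset.univ.filter fun e =>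
    GoodFam P e.1.1 ∧ rho (P e.1.1) e.1.2 e.2 ≠ e.2 ∧ e.2 ∈ Y₀ ∧
      rho (P e.1.1) e.1.2 e.2 ∈ Y₀ ∧ (y = e.2 ∨ y = rho (P e.1.1) e.1.2 e.2) with hE
  have hinv : ∀ g : Grp, ∃ x, GoodFam P g.1 → rho (P g.1) g.2 x = y := fun g => by
    by_cases hg : GoodFam P g.1
    · obtain ⟨x, hx⟩ := (rho_bijective hq hg.1 hg.2 g.2).2 y
      exact ⟨x, fun _ => hx⟩
    · exact ⟨0, fun h => absurd h hg⟩
  choose inv hinv using hinv
  set G1 : Finset Grp := Finset.univ.filter fun g =>
    GoodFam P g.1 ∧ rho (P g.1) g.2 y ∉ Bad with hG1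
  set G2 : Finset Grp := Finset.univ.filter fun g => GoodFam P g.1 ∧ inv g ∉ Bad with hG2
  have hcount : ∀ F : Grp → ZMod q,
      (∀ a j j', GoodFam P a → F (a, j) = F (a, j') → j = j') →
      1782 ≤ (Finset.univ.filter fun g : Grp => GoodFam P g.1 ∧ F g ∉ Bad).card := by
    intro F hF
    have hfam : 9 ≤ (Finset.univ.filter fun a : Fin 10 => GoodFam P a).card := by
      have h1 : (Finset.univ.filter fun a : Fin 10 => ¬GoodFam P a).card ≤ 1 :=
        Finset.card_le_one.2 fun a ha b hb =>
          hP.bad_unique a b (Finset.mem_filter.1 ha).2 (Finset.mem_filter.1 hb).2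
      have h2 := Finset.card_filter_add_card_filter_not (s := (Finset.univ : Finset (Fin 10)))
        (p := fun a => GoodFam P a)
      simp only [Finset.card_univ, Fintype.card_fin] at h2
      omega
    rw [Finset.card_filter, Fintype.sum_prod_type]
    calc 1782 ≤ ∑ a ∈ Finset.univ.filter fun a : Fin 10 => GoodFam P a, 198 := by
          rw [Finset.sum_const, smul_eq_mul]; omega
      _ ≤ ∑ a ∈ Finset.univ.filter fun a : Fin 10 => GoodFam P a,
            ∑ j, if GoodFam P a ∧ F (a, j) ∉ Bad then 1 else 0 := by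
          refine Finset.sum_le_sum fun a ha => ?_
          have hga := (Finset.mem_filter.1 ha).2
          rw [← Finset.card_filter]
          have h1 : (Finset.univ.filter fun j : Fin 200 => F (a, j) ∈ Bad).card ≤ Bad.card :=
            Finset.card_le_card_of_injOn (fun j => F (a, j))
              (fun j hj => (Finset.mem_filter.1 hj).2) fun j _ j' _ h => hF a j j' hga h
          have h2 := Finset.card_filter_add_card_filter_not (s := (Finset.univ : Finset (Fin 200)))
            (p := fun j => F (a, j) ∈ Bad)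
          simp only [Finset.card_univ, Fintype.card_fin] at h2
          simp only [hga, true_and]
          omega
      _ ≤ _ := Finset.sum_le_sum_of_subset (Finset.filter_subset _ _)
  have hc1 : 1782 ≤ G1.card := hcount (fun g => rho (P g.1) g.2 y)
    fun a j j' ha h => rho_member_injective hq h200 ha.1 rfl h
  have hc2 : 1782 ≤ G2.card := hcount inv fun a j j' ha h =>
    rho_member_injective hq h200 ha.1 h ((hinv (a, j) ha).trans (hinv (a, j') ha).symm)
  have hmem : ∀ {z : ZMod q}, z ∉ Bad → z ≠ y ∧ z ∈ Y₀ := by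
    intro z hz
    simpa [hBad] using hz
  have hEcard : 3564 ≤ E.card := by
    have hdisj : Disjoint (G1.image fun g => (g, y)) (G2.image fun g => (g, inv g)) := by
      rw [Finset.disjoint_left]
      intro e he he'
      simp only [Finset.mem_image] at he he'
      obtain ⟨g, -, rfl⟩ := he
      obtain ⟨g', hg', he'⟩ := he'
      simp only [Prod.mk.injEq] at he'
      exact (hmem (Finset.mem_filter.1 hg').2.2).1 he'.2
    have hsub : (G1.image fun g => (g, y)) ∪ (G2.image fun g => (g, inv g)) ⊆ E := by
      intro e he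
      simp only [Finset.mem_union, Finset.mem_image] at he
      rcases he with ⟨g, hg, rfl⟩ | ⟨g, hg, rfl⟩
      · obtain ⟨hga, hb⟩ := (Finset.mem_filter.1 hg).2
        exact Finset.mem_filter.2 ⟨Finset.mem_univ _, hga, (hmem hb).1, hy, (hmem hb).2, Or.inl rfl⟩
      · obtain ⟨hga, hb⟩ := (Finset.mem_filter.1 hg).2
        refine Finset.mem_filter.2 ⟨Finset.mem_univ _, hga, ?_, (hmem hb).2, ?_, Or.inr ?_⟩
        · rw [hinv g hga]; exact fun h => (hmem hb).1 h.symm
        · rw [hinv g hga]; exact hy
        · exact (hinv g hga).symm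
    have h := Finset.card_le_card hsub
    rw [Finset.card_union_of_disjoint hdisj,
      Finset.card_image_of_injective _ (fun _ _ h => (Prod.mk.inj h).1),
      Finset.card_image_of_injective _ (fun _ _ h => (Prod.mk.inj h).1)] at h
    omega
  by_contra hno
  push Not at hno
  -- every edge has more than `196 * u` unusable layers
  have hbad : ∀ e ∈ E, 196 * u + 1 ≤
      (Finset.univ.filter fun l => ¬Usable P MY Z e l).card := by
    intro e he
    obtain ⟨he1, he2, he3, he4, he5⟩ := (Finset.mem_filter.1 he).2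
    by_contra hlt
    have h2 := Finset.card_filter_add_card_filter_not (s := (Finset.univ : Finset (Fin (200 * u))))
      (p := fun l => Usable P MY Z e l)
    simp only [Finset.card_univ, Fintype.card_fin] at h2
    obtain ⟨R, hR, hRc⟩ := Finset.exists_subset_card_eq (n := 4 * u)
      (s := Finset.univ.filter fun l => Usable P MY Z e l) (by omega)
    obtain ⟨l, hl, hl'⟩ := hno e.1 e.2 R he1 he2 he3 he4 he5 hRc
    exact hl' (Finset.mem_filter.1 (hR hl)).2
  set T := (E ×ˢ (Finset.univ : Finset (Fin (200 * u)))).filter fun p => ¬Usable P MY Z p.1 p.2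
    with hT
  have hTlow : E.card * (196 * u + 1) ≤ T.card := by
    calc E.card * (196 * u + 1) = ∑ _e ∈ E, (196 * u + 1) := by rw [Finset.sum_const, smul_eq_mul]
      _ ≤ ∑ e ∈ E, ∑ l : Fin (200 * u), if ¬Usable P MY Z e l then 1 else 0 := by
          refine Finset.sum_le_sum fun e he => ?_
          rw [← Finset.card_filter]
          exact hbad e he
      _ = T.card := by rw [hT, Finset.card_filter, Finset.sum_product]
  set val : (Grp × ZMod q) → ZMod q := fun e => psi1 (P e.1.1) (rho (P e.1.1) e.1.2 e.2)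
  set T1 := T.filter fun p => (val p.1).val / 8 = p.2.val with hT1
  set T2 := T.filter fun p => Sum.inl ((p.1.1, p.2), val p.1) ∈ Z with hT2
  set T3 := T.filter fun p => ((p.1.1, p.2), true) ∈ MY (some p.1.2) ∨
    ((p.1.1, p.2), false) ∈ MY (some (rho (P p.1.1.1) p.1.1.2 p.1.2)) with hT3
  have hsplit : T ⊆ T1 ∪ T2 ∪ T3 := by
    intro p hp
    have hp' := (Finset.mem_filter.1 hp).2
    simp only [Usable] at hp'
    simp only [Finset.mem_union, hT1, hT2, hT3, Finset.mem_filter]
    tauto
  have h1 : T1.card ≤ E.card := by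
    refine Finset.card_le_card_of_injOn (fun p => p.1)
      (fun p hp => (Finset.mem_product.1 (Finset.mem_filter.1 (Finset.mem_filter.1 hp).1).1).1)
      fun p hp p' hp' h => Prod.ext h (Fin.ext ?_)
    simp only at h
    have e1 := (Finset.mem_filter.1 hp).2
    have e2 := (Finset.mem_filter.1 hp').2
    rw [← e1, ← e2, h]
  have h2 : T2.card ≤ Z.card := by
    refine Finset.card_le_card_of_injOn (fun p => Sum.inl ((p.1.1, p.2), val p.1))
      (fun p hp => (Finset.mem_filter.1 hp).2) fun p hp p' hp' h => ?_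
    simp only [Sum.inl.injEq, Prod.mk.injEq] at h
    obtain ⟨⟨hg, hl⟩, hv⟩ := h
    have hgood := (Finset.mem_filter.1
      (Finset.mem_product.1 (Finset.mem_filter.1 (Finset.mem_filter.1 hp).1).1).1).2.1
    simp only [val, psi1, ← hg] at hv
    have := (rho_bijective hq hgood.1 hgood.2 p.1.1.2).1
      (mul_left_cancel₀ hgood.1 (add_right_cancel hv))
    exact Prod.ext (Prod.ext hg this) hl
  have h3 : T3.card ≤ ∑ i, (MY i).card := by
    rw [← Finset.card_sigma]
    refine Finset.card_le_card_of_injOn (fun p => if ((p.1.1, p.2), true) ∈ MY (some p.1.2)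
        then ⟨some p.1.2, ((p.1.1, p.2), true)⟩
        else ⟨some (rho (P p.1.1.1) p.1.1.2 p.1.2), ((p.1.1, p.2), false)⟩) ?_ ?_
    · intro p hp
      have hp' := (Finset.mem_filter.1 hp).2
      dsimp only
      split_ifs with h
      · exact Finset.mem_sigma.2 ⟨Finset.mem_univ _, h⟩
      · exact Finset.mem_sigma.2 ⟨Finset.mem_univ _, hp'.resolve_left h⟩
    · intro p hp p' _ h
      have hgood := (Finset.mem_filter.1
        (Finset.mem_product.1 (Finset.mem_filter.1 (Finset.mem_filter.1 hp).1).1).1).2.1
      dsimp only at h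
      split_ifs at h with ha hb hb <;>
        simp only [Sigma.mk.injEq, Option.some.injEq, heq_eq_eq, Prod.mk.injEq, Bool.true_eq_false,
          Bool.false_eq_true, and_false] at h
      · exact Prod.ext (Prod.ext h.2.1.1 h.1) h.2.1.2
      · obtain ⟨hx, ⟨hg, hl⟩, -⟩ := h
        rw [← hg] at hx
        exact Prod.ext (Prod.ext hg ((rho_bijective hq hgood.1 hgood.2 p.1.1.2).1 hx)) hl
  have hTup := (Finset.card_le_card hsplit).trans
    ((Finset.card_union_le _ _).trans (Nat.add_le_add_right (Finset.card_union_le _ _) _))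
  have hbig : 3564 * (196 * u) ≤ E.card * (196 * u) := Nat.mul_le_mul_right _ hEcard
  rw [Nat.mul_add, Nat.mul_one] at hTlow
  simp only [nn] at htot
  omega

/-- A covering family of edges contains a star forest: a set of leaves, each with its edge to a
centre, every centre having a leaf and every other point being a centre. -/
theorem exists_star_cover {V E : Type} [DecidableEq V] [Nonempty E] (Y : Finset V) (Es : Set E)
    (a b : E → V) (hloop : ∀ e ∈ Es, a e ≠ b e) (hin : ∀ e ∈ Es, a e ∈ Y ∧ b e ∈ Y)
    (hcov : ∀ y ∈ Y, ∃ e ∈ Es, y = a e ∨ y = b e) :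
    ∃ (Lf : Finset V) (ctr : V → V) (ed : V → E), Lf ⊆ Y ∧
      (∀ y ∈ Lf, ctr y ∈ Y \ Lf ∧ ed y ∈ Es ∧
        ((a (ed y) = y ∧ b (ed y) = ctr y) ∨ (b (ed y) = y ∧ a (ed y) = ctr y))) ∧
      ∀ c ∈ Y \ Lf, ∃ y ∈ Lf, ctr y = c := by
  classical
  obtain ⟨e₀⟩ := (inferInstance : Nonempty E)
  let Adj : E → V → V → Prop := fun e v w => (a e = v ∧ b e = w) ∨ (b e = v ∧ a e = w)
  have key : ∀ s : Finset V, s ⊆ Y → ∃ (C Lf : Finset V) (ctr : V → V) (ed : V → E),
      s ⊆ C ∧ C ⊆ Y ∧ Lf ⊆ C ∧
      (∀ y ∈ Lf, ctr y ∈ C ∧ ctr y ∉ Lf ∧ ed y ∈ Es ∧ Adj (ed y) y (ctr y)) ∧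
      ∀ c ∈ C, c ∉ Lf → ∃ y ∈ Lf, ctr y = c := by
    intro s
    induction s using Finset.induction with
    | empty =>
      exact fun _ => ⟨∅, ∅, id, fun _ => e₀, by simp, by simp, by simp, by simp, by simp⟩
    | @insert c s _ ih =>
      intro hs
      obtain ⟨C, Lf, ctr, ed, hsC, hCY, hLC, hleaf, hctr⟩ :=
        ih ((Finset.subset_insert c s).trans hs)
      have hcY : c ∈ Y := hs (Finset.mem_insert_self c s)
      by_cases hcC : c ∈ C
      · exact ⟨C, Lf, ctr, ed, Finset.insert_subset hcC hsC, hCY, hLC, hleaf, hctr⟩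
      obtain ⟨e, he, z, hzY, hzc, hadj⟩ : ∃ e ∈ Es, ∃ z ∈ Y, z ≠ c ∧ Adj e c z := by
        obtain ⟨e, he, h | h⟩ := hcov c hcY
        · exact ⟨e, he, b e, (hin e he).2, fun h' => hloop e he (h.symm.trans h'.symm),
            Or.inl ⟨h.symm, rfl⟩⟩
        · exact ⟨e, he, a e, (hin e he).1, fun h' => hloop e he (h'.trans h),
            Or.inr ⟨h.symm, rfl⟩⟩
      have hsub : ∀ C' : Finset V, insert c C ⊆ C' → insert c s ⊆ C' := fun C' h =>
        (Finset.insert_subset_insert c hsC).trans h
      have hcL : c ∉ Lf := fun h => hcC (hLC h)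
      by_cases hzC : z ∈ C
      swap
      · -- a new star
        refine ⟨insert c (insert z C), insert c Lf, Function.update ctr c z,
          Function.update ed c e, hsub _ (Finset.insert_subset_insert c (Finset.subset_insert z C)),
          Finset.insert_subset hcY (Finset.insert_subset hzY hCY),
          Finset.insert_subset_insert c (hLC.trans (Finset.subset_insert z C)), ?_, ?_⟩
        · intro y hy
          rcases Finset.mem_insert.1 hy with rfl | hy
          · simp only [Function.update_self]
            exact ⟨by simp, by simp [hzc, show z ∉ Lf from fun h => hzC (hLC h)], he, hadj⟩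
          · have hyc : y ≠ c := fun h => hcL (by rw [← h]; exact hy)
            obtain ⟨h1, h2, h3, h4⟩ := hleaf y hy
            simp only [Function.update_of_ne hyc]
            exact ⟨by simp [h1], by simp [h2, show ctr y ≠ c from fun h => hcC (h ▸ h1)], h3, h4⟩
        · intro d hd hdL
          simp only [Finset.mem_insert, not_or] at hd hdL
          rcases hd with rfl | rfl | hd
          · exact absurd rfl hdL.1
          · exact ⟨c, Finset.mem_insert_self _ _, Function.update_self _ _ _⟩
          · obtain ⟨y, hy, hye⟩ := hctr d hd hdL.2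
            exact ⟨y, Finset.mem_insert_of_mem hy,
              by rw [Function.update_of_ne fun h => hcL (by rw [← h]; exact hy)]; exact hye⟩
      by_cases hzL : z ∈ Lf
      swap
      · -- a new leaf of an old centre
        refine ⟨insert c C, insert c Lf, Function.update ctr c z, Function.update ed c e,
          hsub _ subset_rfl, Finset.insert_subset hcY hCY, Finset.insert_subset_insert c hLC, ?_, ?_⟩
        · intro y hy
          rcases Finset.mem_insert.1 hy with rfl | hy
          · simp only [Function.update_self]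
            exact ⟨by simp [hzC], by simp [hzc, hzL], he, hadj⟩
          · have hyc : y ≠ c := fun h => hcL (by rw [← h]; exact hy)
            obtain ⟨h1, h2, h3, h4⟩ := hleaf y hy
            simp only [Function.update_of_ne hyc]
            exact ⟨by simp [h1], by simp [h2, show ctr y ≠ c from fun h => hcC (h ▸ h1)], h3, h4⟩
        · intro d hd hdL
          simp only [Finset.mem_insert, not_or] at hd hdL
          obtain ⟨y, hy, hye⟩ := hctr d (hd.resolve_left hdL.1) hdL.2
          exact ⟨y, Finset.mem_insert_of_mem hy,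
            by rw [Function.update_of_ne fun h => hcL (by rw [← h]; exact hy)]; exact hye⟩
      obtain ⟨hdC, hdL, hzE, hzA⟩ := hleaf z hzL
      have hzd : z ≠ ctr z := fun h => hdL (by rw [← h]; exact hzL)
      have hdc : ctr z ≠ c := fun h => hcC (h ▸ hdC)
      by_cases hother : ∃ y ∈ Lf, y ≠ z ∧ ctr y = ctr z
      · -- `z` leaves its star and becomes a centre
        refine ⟨insert c C, insert c (Lf.erase z), Function.update ctr c z, Function.update ed c e,
          hsub _ subset_rfl, Finset.insert_subset hcY hCY,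
          Finset.insert_subset_insert c ((Finset.erase_subset z Lf).trans hLC), ?_, ?_⟩
        · intro y hy
          rcases Finset.mem_insert.1 hy with rfl | hy
          · simp only [Function.update_self]
            exact ⟨by simp [hzC], by simp [hzc], he, hadj⟩
          · have hyL := Finset.mem_of_mem_erase hy
            have hyc : y ≠ c := fun h => hcL (h ▸ hyL)
            obtain ⟨h1, h2, h3, h4⟩ := hleaf y hyL
            simp only [Function.update_of_ne hyc]
            exact ⟨by simp [h1], by simp [h2, show ctr y ≠ c from fun h => hcC (h ▸ h1)], h3, h4⟩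
        · intro d hd hdL'
          simp only [Finset.mem_insert, Finset.mem_erase, not_or, not_and] at hd hdL'
          have hd' := hd.resolve_left hdL'.1
          by_cases hdz : d = z
          · exact ⟨c, Finset.mem_insert_self _ _, by rw [hdz, Function.update_self]⟩
          obtain ⟨y, hy, hye⟩ := hctr d hd' (hdL'.2 hdz)
          obtain ⟨y', hy', hy'z, hye'⟩ : ∃ y' ∈ Lf, y' ≠ z ∧ ctr y' = d := by
            by_cases hyz : y = z
            · obtain ⟨y', h1, h2, h3⟩ := hother
              exact ⟨y', h1, h2, by rw [h3, ← hyz]; exact hye⟩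
            · exact ⟨y, hy, hyz, hye⟩
          exact ⟨y', Finset.mem_insert_of_mem (Finset.mem_erase.2 ⟨hy'z, hy'⟩),
            by rw [Function.update_of_ne fun h => hcL (by rw [← h]; exact hy')]; exact hye'⟩
      · -- `z` had a single partner, which becomes a leaf of `z`
        push Not at hother
        refine ⟨insert c C, insert c (insert (ctr z) (Lf.erase z)),
          Function.update (Function.update ctr (ctr z) z) c z,
          Function.update (Function.update ed (ctr z) (ed z)) c e,
          hsub _ subset_rfl, Finset.insert_subset hcY hCY,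
          Finset.insert_subset_insert c
            (Finset.insert_subset hdC ((Finset.erase_subset z Lf).trans hLC)), ?_, ?_⟩
        · intro y hy
          simp only [Finset.mem_insert, Finset.mem_erase] at hy
          rcases hy with rfl | rfl | ⟨hyz, hy⟩
          · simp only [Function.update_self]
            exact ⟨by simp [hzC], by simp [hzc, hzd], he, hadj⟩
          · simp only [Function.update_of_ne hdc, Function.update_self]
            refine ⟨by simp [hzC], by simp [hzc, hzd], hzE, ?_⟩
            rcases hzA with ⟨h1, h2⟩ | ⟨h1, h2⟩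
            · exact Or.inr ⟨h2, h1⟩
            · exact Or.inl ⟨h2, h1⟩
          · have hyc : y ≠ c := fun h => hcL (by rw [← h]; exact hy)
            have hyd : y ≠ ctr z := fun h => hdL (by rw [← h]; exact hy)
            obtain ⟨h1, h2, h3, h4⟩ := hleaf y hy
            simp only [Function.update_of_ne hyc, Function.update_of_ne hyd]
            exact ⟨by simp [h1],
              by simp [h2, hother y hy hyz, show ctr y ≠ c from fun h => hcC (h ▸ h1)], h3, h4⟩
        · intro d hd hdL'
          simp only [Finset.mem_insert, Finset.mem_erase, not_or, not_and] at hd hdL'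
          have hd' := hd.resolve_left hdL'.1
          by_cases hdz : d = z
          · exact ⟨c, Finset.mem_insert_self _ _, by rw [hdz, Function.update_self]⟩
          obtain ⟨y, hy, hye⟩ := hctr d hd' (hdL'.2.2 hdz)
          have hyz : y ≠ z := fun h => hdL'.2.1 (by rw [← hye, h])
          refine ⟨y, Finset.mem_insert_of_mem (Finset.mem_insert_of_mem
            (Finset.mem_erase.2 ⟨hyz, hy⟩)), ?_⟩
          rw [Function.update_of_ne fun h => hcL (by rw [← h]; exact hy),
            Function.update_of_ne fun h => hdL (by rw [← h]; exact hy)]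
          exact hye
  obtain ⟨C, Lf, ctr, ed, hYC, hCY, hLC, hleaf, hctr⟩ := key Y subset_rfl
  refine ⟨Lf, ctr, ed, hLC.trans hCY, fun y hy => ?_, fun c hc => ?_⟩
  · obtain ⟨h1, h2, h3, h4⟩ := hleaf y hy
    exact ⟨Finset.mem_sdiff.2 ⟨hCY h1, h2⟩, h3, h4⟩
  · obtain ⟨h1, h2⟩ := Finset.mem_sdiff.1 hc
    exact hctr c (hYC h1) h2

/-- At most four thousand bundle edges end in one line. -/
theorem star_size_le [NeZero q] (hq : q.Prime) (P : Fin 10 → Coef q) (Lf : Finset (ZMod q))
    (ctr : ZMod q → ZMod q) (ed : ZMod q → Grp × ZMod q) (c : ZMod q)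
    (hgood : ∀ y ∈ Lf, GoodFam P (ed y).1.1)
    (hed : ∀ y ∈ Lf, ((ed y).2 = y ∧ rho (P (ed y).1.1) (ed y).1.2 (ed y).2 = ctr y) ∨
      (rho (P (ed y).1.1) (ed y).1.2 (ed y).2 = y ∧ (ed y).2 = ctr y)) :
    (Lf.filter fun y => ctr y = c).card ≤ 4000 := by
  classical
  have hc : (Finset.univ : Finset (Grp × Bool)).card ≤ 4000 := by
    have h : Fintype.card (Fin 10) * Fintype.card (Fin 200) * Fintype.card Bool ≤ 4000 := by
      simp only [Fintype.card_fin, Fintype.card_bool]
      norm_num
    simpa only [Finset.card_univ, Fintype.card_prod] using h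
  refine (Finset.card_le_card_of_injOn (fun y => ((ed y).1, decide ((ed y).2 = y)))
    (t := (Finset.univ : Finset (Grp × Bool))) (by rw [Finset.coe_univ]; exact Set.mapsTo_univ _ _) ?_).trans hc
  intro y hy y' hy' h
  simp only [Finset.coe_filter, Set.mem_ofPred_eq] at hy hy'
  simp only [Prod.mk.injEq, decide_eq_decide] at h
  obtain ⟨hg, hd⟩ := h
  by_cases hy1 : (ed y).2 = y
  · have hy1' := hd.1 hy1
    have hinj := (rho_bijective hq (hgood y hy.1).1 (hgood y hy.1).2 (ed y).1.2).1
    have e1 : rho (P (ed y).1.1) (ed y).1.2 y = c := by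
      rcases hed y hy.1 with ⟨-, h2⟩ | ⟨h2, h3⟩
      · rw [hy1] at h2; rw [h2, hy.2]
      · rw [hy1] at h2
        rw [h2, ← hy.2, ← h3, hy1]
    have e2 : rho (P (ed y).1.1) (ed y).1.2 y' = c := by
      rcases hed y' hy'.1 with ⟨-, h2⟩ | ⟨h2, h3⟩
      · rw [hy1', ← hg] at h2; rw [h2, hy'.2]
      · rw [hy1', ← hg] at h2
        rw [h2, ← hy'.2, ← h3, hy1']
    exact hinj (e1.trans e2.symm)
  · have hy1' : (ed y').2 ≠ y' := fun h => hy1 (hd.2 h)
    obtain ⟨h2, h3⟩ := (hed y hy.1).resolve_left fun h => hy1 h.1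
    obtain ⟨h4, h5⟩ := (hed y' hy'.1).resolve_left fun h => hy1' h.1
    rw [h3, hy.2] at h2
    rw [h5, hy'.2, ← hg, h2] at h4
    exact h4

/-- A bijection leaves a set as often as it enters it. -/
theorem crossing_le [NeZero q] (f : ZMod q → ZMod q) (hf : Function.Bijective f)
    (S : Finset (ZMod q)) :
    ((Finset.univ : Finset (ZMod q)).filter fun y => ¬(y ∈ S ↔ f y ∈ S)).card ≤
      2 * leak f S := by
  classical
  have hA : (S.filter fun y => f y ∉ S).card = leak f S := by
    unfold leak
    rw [← Finset.card_image_of_injective _ hf.1]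
    congr 1
    ext v
    simp only [Finset.mem_image, Finset.mem_filter, Finset.mem_sdiff]
    constructor
    · rintro ⟨x, ⟨hx, hn⟩, rfl⟩; exact ⟨⟨x, hx, rfl⟩, hn⟩
    · rintro ⟨⟨x, hx, rfl⟩, hn⟩; exact ⟨x, ⟨hx, hn⟩, rfl⟩
  have hPre : ((Finset.univ : Finset (ZMod q)).filter fun y => f y ∈ S).card = S.card := by
    rw [← Finset.card_image_of_injective _ hf.1]
    congr 1
    ext v
    simp only [Finset.mem_image, Finset.mem_filter, Finset.mem_univ, true_and]
    exact ⟨fun ⟨x, hx, e⟩ => e ▸ hx,
      fun h => ⟨_, (hf.2 v).choose_spec.symm ▸ h, (hf.2 v).choose_spec⟩⟩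
  have h1 := Finset.card_filter_add_card_filter_not
    (s := (Finset.univ : Finset (ZMod q)).filter fun y => f y ∈ S) (p := fun y => y ∈ S)
  have h2 := Finset.card_filter_add_card_filter_not (s := S) (p := fun y => f y ∈ S)
  have h3 : ((Finset.univ : Finset (ZMod q)).filter fun y => f y ∈ S).filter (fun y => y ∈ S)
      = S.filter fun y => f y ∈ S := by
    ext y; simp [and_comm]
  rw [h3, hPre] at h1
  rw [hA] at h2
  have h4 : ((Finset.univ : Finset (ZMod q)).filter fun y => ¬(y ∈ S ↔ f y ∈ S)) ⊆
      (S.filter fun y => f y ∉ S) ∪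
        ((Finset.univ : Finset (ZMod q)).filter fun y => f y ∈ S).filter fun y => ¬y ∈ S := by
    intro y hy
    simp only [Finset.mem_filter, Finset.mem_univ, true_and, Finset.mem_union] at hy ⊢
    tauto
  have h5 := (Finset.card_le_card h4).trans (Finset.card_union_le _ _)
  rw [hA] at h5
  omega

end Vale.Agent.P045.Ryser
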