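import Mathlib

/-!
# Expansion of families of translates of one affine map on a prime field
-/

namespace Vale.Agent.P045.Ryser

open Finset
open scoped Pointwise

variable {q h : ℕ}

/-- The number of elements of the image of `S` outside `S`. -/
noncomputable def leak [NeZero q] (f : ZMod q → ZMod q) (S : Finset (ZMod q)) : ℕ :=
  (S.image f \ S).card

/-- A bijection leaks as much out of the complement as out of the set. -/
theorem leak_compl [NeZero q] (f : ZMod q → ZMod q) (hf : Function.Bijective f)
    (S : Finset (ZMod q)) : leak f Sᶜ = leak f S := by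
  have himg : Sᶜ.image f = (S.image f)ᶜ := by
    ext x
    obtain ⟨y, rfl⟩ := hf.2 x
    simp [hf.1.eq_iff]
  have hcard : S.card = (S.image f).card := (card_image_of_injective _ hf.1).symm
  unfold leak
  rw [himg]
  have e : (S.image f)ᶜ \ Sᶜ = S \ S.image f := by
    ext x; simp [and_comm]
  rw [e]
  exact card_sdiff_comm hcard

theorem shift_bijective [NeZero q] (α : ZMod q) (hα : α ≠ 0) (hq : q.Prime) (b : ZMod q) :
    Function.Bijective (fun y => α * y + b) := by
  have := Fact.mk hq
  refine Finite.injective_iff_bijective.1 fun x y hxy => ?_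
  simpa [hα] using hxy

/-- For small sets the translates send a point out of the set almost always. -/
theorem sum_leak_ge [NeZero q] (α : ZMod q) (hα : α ≠ 0) (hq : q.Prime) (β : Fin h → ZMod q)
    (hβ : Function.Injective β) (S : Finset (ZMod q)) :
    S.card * (h - S.card) ≤ ∑ j, leak (fun y => α * y + β j) S := by
  have h1 : ∀ j, leak (fun y => α * y + β j) S = ∑ y ∈ S, if α * y + β j ∈ S then 0 else 1 := by
    intro j
    have hi := (shift_bijective α hα hq (β j)).1
    have e : S.image (fun y => α * y + β j) \ S =
        (S.filter fun y => α * y + β j ∉ S).image (fun y => α * y + β j) := by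
      ext x; simp only [mem_sdiff, mem_image, mem_filter]
      constructor
      · rintro ⟨⟨y, hy, rfl⟩, hx⟩; exact ⟨y, ⟨hy, hx⟩, rfl⟩
      · rintro ⟨y, ⟨hy, hx⟩, rfl⟩; exact ⟨⟨y, hy, rfl⟩, hx⟩
    rw [leak, e, card_image_of_injective _ hi, card_filter]
    exact sum_congr rfl fun y _ => by by_cases hy : α * y + β j ∈ S <;> simp [hy]
  simp only [h1]
  rw [sum_comm]
  refine le_trans (le_of_eq ?_) (sum_le_sum (f := fun _ => h - S.card) fun y _ => ?_)
  · rw [sum_const, smul_eq_mul]
  · have hin : (univ.filter fun j => α * y + β j ∈ S).card ≤ S.card := by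
      refine card_le_card_of_injOn (fun j => α * y + β j) (fun j hj => ?_) ?_
      · simpa using hj
      · intro a _ b _ hab; exact hβ (add_left_cancel hab)
    have hsplit := card_filter_add_card_filter_not (s := (univ : Finset (Fin h)))
      (fun j => α * y + β j ∈ S)
    rw [card_univ, Fintype.card_fin] at hsplit
    have e : (∑ j, if α * y + β j ∈ S then 0 else 1) =
        (univ.filter fun j => α * y + β j ∉ S).card := by
      rw [card_filter]
      exact sum_congr rfl fun j _ => by by_cases hy : α * y + β j ∈ S <;> simp [hy]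
    omega

/-- At most seventeen translates leak at most one element of a set of middle size. -/
theorem leak_le_one_count [NeZero q] (α : ZMod q) (hα : α ≠ 0) (hq : q.Prime)
    (β : Fin h → ZMod q) (hβ : Function.Injective β) (S : Finset (ZMod q))
    (h4 : 4 ≤ S.card) (h2 : 2 * S.card < q) :
    (univ.filter fun j => leak (fun y => α * y + β j) S ≤ 1).card ≤ 17 := by
  have := Fact.mk hq
  set F := univ.filter fun j => leak (fun y => α * y + β j) S ≤ 1 with hF
  rcases F.eq_empty_or_nonempty with h0 | ⟨j₀, hj₀⟩
  · rw [h0, card_empty]; omega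
  set A := S.image (α * ·) with hA
  have hAc : A.card = S.card := card_image_of_injective _ (mul_right_injective₀ hα)
  let X : ZMod q → Finset (ZMod q) := fun b => A.image (· + b)
  have hX0 : X 0 = A := by ext; simp [X]
  have hXX : ∀ b c, (X b).image (· + c) = X (b + c) := fun b c => by
    simp only [X, image_image]
    exact image_congr fun a _ => by simp [add_assoc]
  have hleak : ∀ j, leak (fun y => α * y + β j) S = (X (β j) \ S).card := fun j => by
    simp only [leak, X, hA, image_image, Function.comp_def]
  have hXc : ∀ b, (X b).card = S.card := fun b => by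
    rw [← hAc]; exact card_image_of_injective _ (add_left_injective b)
  have shiftcard : ∀ b c d, (X (b + d) \ X (c + d)).card = (X b \ X c).card := fun b c d => by
    rw [← hXX, ← hXX, ← image_sdiff _ _ (add_left_injective d),
      card_image_of_injective _ (add_left_injective d)]
  have tri : ∀ P Q R : Finset (ZMod q), (P \ R).card ≤ (P \ Q).card + (Q \ R).card :=
    fun P Q R => (card_le_card (sdiff_triangle P Q R)).trans (card_union_le _ _)
  set D := F.image (fun j => β j - β j₀) with hD
  have hDc : D.card = F.card := card_image_of_injective _ fun a b hab => hβ (sub_left_injective hab)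
  have hDne : D.Nonempty := ⟨_, mem_image_of_mem _ hj₀⟩
  have hsmall : ∀ x ∈ D, (X x \ A).card ≤ 2 := by
    intro x hx
    obtain ⟨j, hj, rfl⟩ := mem_image.1 hx
    have h1 : (X (β j) \ S).card ≤ 1 := by rw [← hleak]; exact (mem_filter.1 hj).2
    have h2 : (S \ X (β j₀)).card ≤ 1 := by
      rw [← card_sdiff_comm (hXc (β j₀)), ← hleak]; exact (mem_filter.1 hj₀).2
    have := shiftcard (β j - β j₀) 0 (β j₀)
    rw [sub_add_cancel, zero_add, hX0] at this
    have := tri (X (β j)) S (X (β j₀))
    omega
  have key : ∀ k : ℕ, ∃ E : Finset (ZMod q), E.Nonempty ∧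
      min q (k * (D.card - 1) + 1) ≤ E.card ∧ ∀ x ∈ E, (X x \ A).card ≤ 2 * k := by
    intro k
    induction k with
    | zero => exact ⟨{0}, singleton_nonempty 0, by simp, by simp [hX0]⟩
    | succ k ih =>
      obtain ⟨E, hEne, hE, hE2⟩ := ih
      refine ⟨E + D, hEne.add hDne, ?_, fun x hx => ?_⟩
      · have := ZMod.cauchy_davenport hq hEne hDne
        have := hDne.card_pos
        have e : (k + 1) * (D.card - 1) = k * (D.card - 1) + (D.card - 1) := by ring
        omega
      · obtain ⟨a, ha, d, hd, rfl⟩ := mem_add.1 hx
        have h3 := shiftcard a 0 d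
        rw [zero_add, hX0] at h3
        have h4 := tri (X (a + d)) (X d) A
        have := hE2 a ha
        have := hsmall d hd
        omega
  obtain ⟨E, -, hE, hE2⟩ := key (S.card / 4)
  have hsum : ∑ x, (X x ∩ A).card = S.card * S.card := by
    have h1 : ∀ x, (X x ∩ A).card = ∑ a ∈ A, if a + x ∈ A then 1 else 0 := fun x => by
      have e : X x ∩ A = (A.filter fun a => a + x ∈ A).image (· + x) := by
        ext z; simp only [X, mem_inter, mem_image, mem_filter]
        constructor
        · rintro ⟨⟨a, ha, rfl⟩, hz⟩; exact ⟨a, ⟨ha, hz⟩, rfl⟩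
        · rintro ⟨a, ⟨ha, hz⟩, rfl⟩; exact ⟨⟨a, ha, rfl⟩, hz⟩
      rw [e, card_image_of_injective _ (add_left_injective x), card_filter]
    simp only [h1]
    rw [sum_comm]
    have h2 : ∀ a : ZMod q, (∑ x, if a + x ∈ A then (1 : ℕ) else 0) = A.card := fun a => by
      rw [Fintype.sum_equiv (Equiv.addLeft a) (fun x => if a + x ∈ A then (1 : ℕ) else 0)
        (fun z => if z ∈ A then 1 else 0) (fun _ => rfl)]
      simp
    rw [sum_congr rfl fun a _ => h2 a, sum_const, smul_eq_mul, hAc]
  have hover : ∀ x ∈ E, S.card ≤ 2 * (X x ∩ A).card := fun x hx => by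
    have := card_sdiff_add_card_inter (X x) A
    have := hE2 x hx
    have := hXc x
    omega
  have h5 : E.card * S.card ≤ 2 * S.card * S.card :=
    calc E.card * S.card = ∑ x ∈ E, S.card := by rw [sum_const, smul_eq_mul]
      _ ≤ ∑ x ∈ E, 2 * (X x ∩ A).card := sum_le_sum hover
      _ ≤ ∑ x, 2 * (X x ∩ A).card :=
        sum_le_sum_of_subset_of_nonneg (subset_univ _) fun _ _ _ => Nat.zero_le _
      _ = 2 * S.card * S.card := by rw [← mul_sum, hsum, mul_assoc]
  have h6 : E.card ≤ 2 * S.card := Nat.le_of_mul_le_mul_right h5 (by omega)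
  have h7 : S.card / 4 * (D.card - 1) + 1 ≤ 2 * S.card := by omega
  by_contra hbig
  have h8 : S.card / 4 * 16 ≤ S.card / 4 * (D.card - 1) := Nat.mul_le_mul_left _ (by omega)
  omega

/-- Two hundred translates: total leak of a singleton or of a set of middle size. -/
theorem family_expand [NeZero q] (α : ZMod q) (hα : α ≠ 0) (hq : q.Prime) (hbig : 1000 ≤ q)
    (β : Fin 200 → ZMod q) (hβ : Function.Injective β) (S : Finset (ZMod q)) :
    (S.card = 1 → 199 ≤ ∑ j, leak (fun y => α * y + β j) S) ∧
      (2 ≤ S.card → S.card + 2 ≤ q → 366 ≤ ∑ j, leak (fun y => α * y + β j) S) := by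
  constructor
  · intro h1
    have := sum_leak_ge α hα hq β hβ S
    rw [h1] at this
    omega
  intro h2 h3
  suffices key : ∀ T : Finset (ZMod q), 2 ≤ T.card → 2 * T.card < q →
      366 ≤ ∑ j, leak (fun y => α * y + β j) T by
    rcases lt_or_ge (2 * S.card) q with hlt | hge
    · exact key S h2 hlt
    · have hodd : 2 * S.card ≠ q := fun he => by
        rcases hq.eq_one_or_self_of_dvd 2 ⟨S.card, he.symm⟩ with h | h <;> omega
      have hc : Sᶜ.card = q - S.card := by rw [card_compl, ZMod.card]
      have := key Sᶜ (by omega) (by omega)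
      simpa only [leak_compl _ (shift_bijective α hα hq _)] using this
  intro T hT hT'
  rcases Nat.lt_or_ge T.card 4 with h4 | h4
  · have := sum_leak_ge α hα hq β hβ T
    interval_cases hc : T.card <;> omega
  · have hc := leak_le_one_count α hα hq β hβ T h4 hT'
    have hs := card_filter_add_card_filter_not (s := (univ : Finset (Fin 200)))
      (fun j => leak (fun y => α * y + β j) T ≤ 1)
    rw [card_univ, Fintype.card_fin] at hs
    have hge := card_nsmul_le_sum (univ.filter fun j => ¬ leak (fun y => α * y + β j) T ≤ 1)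
      (fun j => leak (fun y => α * y + β j) T) 2
      (fun j hj => by have := (mem_filter.1 hj).2; omega)
    rw [smul_eq_mul] at hge
    have := sum_le_sum_of_subset_of_nonneg (f := fun j => leak (fun y => α * y + β j) T)
      (filter_subset (fun j => ¬ leak (fun y => α * y + β j) T ≤ 1) univ)
      (fun _ _ _ => Nat.zero_le _)
    omega

end Vale.Agent.P045.Ryser
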