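import Vale.Agent.P045.Ryser.Attempts
import Vale.Agent.P045.Ryser.Edges

/-!
# The star forest of bundle edges at a point, with its colours and slots
-/

namespace Vale.Agent.P045.Ryser

open Finset

set_option maxRecDepth 20000
set_option linter.constructorNameAsVariable false

variable {u q : ℕ}

/-- A star forest on `Y₀` of bundle edges, with an assignment of usable layers to bit positions. -/
structure Forest (P : Fin 10 → Coef q) (MY : Option (ZMod q) → Finset (Slot u))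
    (Z : Finset (Pool u q)) (Y₀ : Finset (ZMod q)) where
  /-- The leaves. -/
  Lf : Finset (ZMod q)
  /-- The centre of a leaf. -/
  ctr : ZMod q → ZMod q
  /-- The edge of a leaf. -/
  ed : ZMod q → Grp × ZMod q
  /-- The layers of the edge of a leaf. -/
  lay : ZMod q → Pos u × Bool → Fin (200 * u)
  leaf_mem : ∀ y ∈ Lf, y ∈ Y₀
  ctr_mem : ∀ y ∈ Lf, ctr y ∈ Y₀
  ctr_not : ∀ y ∈ Lf, ctr y ∉ Lf
  has_leaf : ∀ c ∈ Y₀, c ∉ Lf → ∃ y ∈ Lf, ctr y = c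
  good : ∀ y ∈ Lf, GoodFam P (ed y).1.1
  moves : ∀ y ∈ Lf, rho (P (ed y).1.1) (ed y).1.2 (ed y).2 ≠ (ed y).2
  ends : ∀ y ∈ Lf, ((ed y).2 = y ∧ rho (P (ed y).1.1) (ed y).1.2 (ed y).2 = ctr y) ∨
      (rho (P (ed y).1.1) (ed y).1.2 (ed y).2 = y ∧ (ed y).2 = ctr y)
  lay_inj : ∀ y ∈ Lf, Function.Injective (lay y)
  usable : ∀ y ∈ Lf, ∀ t, Usable P MY Z (ed y) (lay y t)

/-- Star forest of bundle edges with usable layers. -/
theorem exists_forest [NeZero q] (hp : Par u q) (P : Fin 10 → Coef q) (hP : PencilHyp P)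
    (MY : Option (ZMod q) → Finset (Slot u)) (Z : Finset (Pool u q)) (hZ : Z.card ≤ 2)
    (htot : ∑ i, (MY i).card ≤ nn u + 2) (Y₀ : Finset (ZMod q)) (hY₀ : q ≤ Y₀.card + 1) :
    Nonempty (Forest P MY Z Y₀) := by
  classical
  let Es : Set (Grp × ZMod q) := {e | GoodFam P e.1.1 ∧ rho (P e.1.1) e.1.2 e.2 ≠ e.2 ∧
    e.2 ∈ Y₀ ∧ rho (P e.1.1) e.1.2 e.2 ∈ Y₀ ∧
    ∃ f : Pos u × Bool → Fin (200 * u), Function.Injective f ∧ ∀ t, Usable P MY Z e (f t)}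
  obtain ⟨Lf, ctr, ed, h1, h2, h3⟩ := exists_star_cover Y₀ Es (fun e => e.2)
    (fun e => rho (P e.1.1) e.1.2 e.2) (fun e he => Ne.symm he.2.1)
    (fun e he => ⟨he.2.2.1, he.2.2.2.1⟩) (fun y hy => by
      obtain ⟨g, x, R, a1, a2, a3, a4, a5, a6, a7⟩ :=
        exists_good_edge hp P hP MY Z hZ htot Y₀ hY₀ y hy
      obtain ⟨f, hf, hfR⟩ := exists_injective_into (α := Pos u × Bool) R (by
        simp only [Fintype.card_prod, Fintype.card_fin, Fintype.card_bool]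
        omega)
      exact ⟨(g, x), ⟨a1, a2, a3, a4, f, hf, fun t => a7 _ (hfR t)⟩, a5⟩)
  have h4 : ∀ y, ∃ f : Pos u × Bool → Fin (200 * u),
      y ∈ Lf → Function.Injective f ∧ ∀ t, Usable P MY Z (ed y) (f t) := by
    intro y
    by_cases hy : y ∈ Lf
    · obtain ⟨f, hf⟩ := (h2 y hy).2.1.2.2.2.2
      exact ⟨f, fun _ => hf⟩
    · have : Nonempty (Fin (200 * u)) := ⟨⟨0, by have := hp.hu; omega⟩⟩
      exact ⟨Classical.arbitrary _, fun h => absurd h hy⟩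
  choose lay hlay using h4
  exact ⟨⟨Lf, ctr, ed, lay, fun y hy => h1 hy, fun y hy => (mem_sdiff.1 (h2 y hy).1).1,
    fun y hy => (mem_sdiff.1 (h2 y hy).1).2, fun c hc hc' => h3 c (mem_sdiff.2 ⟨hc, hc'⟩),
    fun y hy => (h2 y hy).2.1.1, fun y hy => (h2 y hy).2.1.2.1, fun y hy => (h2 y hy).2.2,
    fun y hy => (hlay y hy).1, fun y hy => (hlay y hy).2⟩⟩

namespace Forest

variable {P : Fin 10 → Coef q} {MY : Option (ZMod q) → Finset (Slot u)}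
  {Z : Finset (Pool u q)} {Y₀ : Finset (ZMod q)} (F : Forest P MY Z Y₀)

/-- The colour of a layer of the edge of a leaf. -/
def bc (ℓ : ZMod q) (t : Pos u × Bool) : Pool u q :=
  Sum.inl (((F.ed ℓ).1, F.lay ℓ t),
    psi1 (P (F.ed ℓ).1.1) (rho (P (F.ed ℓ).1.1) (F.ed ℓ).1.2 (F.ed ℓ).2))

/-- The centre takes the given bit and the leaf the other one. -/
def tag (y ℓ : ZMod q) (k : Pos u) (b : Bool) : Pos u × Bool := (k, if y = ℓ then !b else b)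

/-- The slot at an end `y` of the edge of `ℓ` for one position and bit. -/
def slot (y ℓ : ZMod q) (k : Pos u) (b : Bool) : Slot u :=
  (((F.ed ℓ).1, F.lay ℓ (tag y ℓ k b)), decide (y = (F.ed ℓ).2))

/-- The edges at a line. -/
def inc (y : ZMod q) : Finset (ZMod q) := F.Lf.filter fun ℓ => y = ℓ ∨ y = F.ctr ℓ

/-- The number of colours demanded by a line. -/
def dem (y : ZMod q) : ℕ := 400000 * u - 2 * u * (F.inc y).card

/-- The reserved colours. -/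
def res : Finset (Pool u q) :=
  (F.Lf ×ˢ (univ : Finset (Pos u × Bool))).image fun p => F.bc p.1 p.2

theorem leaf_ne {ℓ : ZMod q} (hℓ : ℓ ∈ F.Lf) : ℓ ≠ F.ctr ℓ := fun h => F.ctr_not ℓ hℓ (h ▸ hℓ)

theorem mem_inc {y ℓ : ZMod q} : ℓ ∈ F.inc y ↔ ℓ ∈ F.Lf ∧ (y = ℓ ∨ y = F.ctr ℓ) := mem_filter

theorem inc_nonempty {y : ZMod q} (hy : y ∈ Y₀) : (F.inc y).Nonempty := by
  by_cases h : y ∈ F.Lf
  · exact ⟨y, F.mem_inc.2 ⟨h, Or.inl rfl⟩⟩
  · obtain ⟨ℓ, hℓ, e⟩ := F.has_leaf y hy h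
    exact ⟨ℓ, F.mem_inc.2 ⟨hℓ, Or.inr e.symm⟩⟩

theorem ends_iff {ℓ : ZMod q} (hℓ : ℓ ∈ F.Lf) (y : ZMod q) :
    (y = ℓ ∨ y = F.ctr ℓ) ↔
      (y = (F.ed ℓ).2 ∨ y = rho (P (F.ed ℓ).1.1) (F.ed ℓ).1.2 (F.ed ℓ).2) := by
  rcases F.ends ℓ hℓ with ⟨e1, e2⟩ | ⟨e1, e2⟩
  · rw [e2, e1]
  · rw [e1, e2]; exact or_comm

theorem bundle [NeZero q] (hp : Par u q) {ℓ : ZMod q} (hℓ : ℓ ∈ F.Lf) (t : Pos u × Bool) :
    col P (F.ed ℓ).2 (((F.ed ℓ).1, F.lay ℓ t), true) = F.bc ℓ t ∧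
      col P (rho (P (F.ed ℓ).1.1) (F.ed ℓ).1.2 (F.ed ℓ).2)
        (((F.ed ℓ).1, F.lay ℓ t), false) = F.bc ℓ t ∧
      ∀ y (s : Slot u), col P y s = F.bc ℓ t → y = ℓ ∨ y = F.ctr ℓ := by
  obtain ⟨b1, b2, b3⟩ := bundle_colour hp P (F.ed ℓ).1 (F.good ℓ hℓ) (F.ed ℓ).2 (F.moves ℓ hℓ)
    (F.lay ℓ t) (F.usable ℓ hℓ t).1
  refine ⟨b1, b2, fun y s h => (F.ends_iff hℓ y).2 ?_⟩
  rcases b3 y s h with ⟨e, -⟩ | ⟨e, -⟩
  · exact Or.inl e
  · exact Or.inr e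

theorem col_slot [NeZero q] (hp : Par u q) {y ℓ : ZMod q} (h : ℓ ∈ F.inc y) (k : Pos u)
    (b : Bool) :
    col P y (F.slot y ℓ k b) = F.bc ℓ (tag y ℓ k b) ∧ F.slot y ℓ k b ∉ MY (some y) := by
  obtain ⟨hℓ, hy⟩ := F.mem_inc.1 h
  obtain ⟨b1, b2, -⟩ := F.bundle hp hℓ (tag y ℓ k b)
  obtain ⟨-, m1, m2, -⟩ := F.usable ℓ hℓ (tag y ℓ k b)
  unfold slot
  rcases (F.ends_iff hℓ y).1 hy with e | e
  · rw [decide_eq_true e]
    rw [← e] at b1 m1
    exact ⟨b1, m1⟩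
  · rw [decide_eq_false fun h' => F.moves ℓ hℓ (e.symm.trans h')]
    rw [← e] at b2 m2
    exact ⟨b2, m2⟩

theorem bc_inj [NeZero q] (hp : Par u q) {ℓ ℓ' : ZMod q} (hℓ : ℓ ∈ F.Lf) (hℓ' : ℓ' ∈ F.Lf)
    {t t' : Pos u × Bool} (h : F.bc ℓ t = F.bc ℓ' t') : ℓ = ℓ' ∧ t = t' := by
  simp only [bc, Sum.inl.injEq, Prod.mk.injEq] at h
  obtain ⟨⟨hg, hl⟩, hv⟩ := h
  have hgood := F.good ℓ hℓ
  rw [← hg] at hv
  have hx := (rho_bijective hp.hq hgood.1 hgood.2 _).1 (psi1_inj hp _ hgood.1 hv)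
  have he : F.ed ℓ = F.ed ℓ' := Prod.ext hg hx
  have h1 := (F.ends_iff hℓ' ℓ).2 (by rw [← he]; exact (F.ends_iff hℓ ℓ).1 (Or.inl rfl))
  have hll : ℓ = ℓ' := h1.resolve_right fun h1 => F.ctr_not ℓ' hℓ' (h1 ▸ hℓ)
  subst hll
  exact ⟨rfl, F.lay_inj ℓ hℓ hl⟩

theorem slot_inj [NeZero q] (hp : Par u q) {y ℓ ℓ' : ZMod q} {k k' : Pos u} {b b' : Bool}
    (h : ℓ ∈ F.inc y) (h' : ℓ' ∈ F.inc y) (e : F.slot y ℓ k b = F.slot y ℓ' k' b') :
    ℓ = ℓ' ∧ k = k' ∧ b = b' := by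
  have e' := congrArg (col P y) e
  rw [(F.col_slot hp h k b).1, (F.col_slot hp h' k' b').1] at e'
  obtain ⟨rfl, e2⟩ := F.bc_inj hp (F.mem_inc.1 h).1 (F.mem_inc.1 h').1 e'
  simp only [tag, Prod.mk.injEq] at e2
  obtain ⟨rfl, e3⟩ := e2
  refine ⟨rfl, rfl, ?_⟩
  by_cases hy : y = ℓ <;> simpa [hy] using e3

theorem bc_mem_res {ℓ : ZMod q} (hℓ : ℓ ∈ F.Lf) (t : Pos u × Bool) : F.bc ℓ t ∈ F.res :=
  mem_image.2 ⟨(ℓ, t), mem_product.2 ⟨hℓ, mem_univ _⟩, rfl⟩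

theorem card_pos_bool : (univ : Finset (Pos u × Bool)).card = 4 * u := by
  simp only [card_univ, Fintype.card_prod, Fintype.card_fin, Fintype.card_bool]
  ring

theorem card_res [NeZero q] (hp : Par u q) : F.res.card = 4 * u * F.Lf.card := by
  rw [res, card_image_of_injOn, card_product, card_pos_bool, mul_comm]
  intro p hp' p' hp'' h
  obtain ⟨e1, e2⟩ := F.bc_inj hp (mem_product.1 hp').1 (mem_product.1 hp'').1 h
  exact Prod.ext e1 e2

theorem res_disjoint [NeZero q] (hp : Par u q) (Used : Finset (Pool u q))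
    (hUZ : ∀ c ∈ Used, c ∈ Z ∨ (∃ s, c = specCol s) ∨ c ∈ colours P Y₀ᶜ) :
    Disjoint F.res Used := by
  rw [disjoint_left]
  intro c hc hcU
  obtain ⟨⟨ℓ, t⟩, hp', rfl⟩ := mem_image.1 hc
  have hℓ := (mem_product.1 hp').1
  rcases hUZ _ hcU with h | ⟨s, h⟩ | h
  · exact (F.usable ℓ hℓ t).2.2.2 h
  · simp [bc, specCol] at h
  · obtain ⟨y, hy, s, hs⟩ := mem_colours.1 h
    refine mem_compl.1 hy ?_
    rcases (F.bundle hp hℓ t).2.2 y s hs with e | e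
    · rw [e]; exact F.leaf_mem ℓ hℓ
    · rw [e]; exact F.ctr_mem ℓ hℓ

theorem card_inc_le [NeZero q] (hp : Par u q) (y : ZMod q) : (F.inc y).card ≤ 4000 := by
  by_cases hy : y ∈ F.Lf
  · refine (card_le_one.2 fun a ha b hb => ?_).trans (by norm_num)
    have key : ∀ ℓ ∈ F.inc y, ℓ = y := fun ℓ h => by
      obtain ⟨hℓ, e | e⟩ := F.mem_inc.1 h
      · exact e.symm
      · exact absurd (e ▸ hy) (F.ctr_not ℓ hℓ)
    rw [key a ha, key b hb]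
  · refine le_trans (card_le_card fun ℓ h => ?_)
      (star_size_le hp.hq P F.Lf F.ctr F.ed y F.good F.ends)
    obtain ⟨hℓ, e | e⟩ := F.mem_inc.1 h
    · exact absurd (e ▸ hℓ) hy
    · exact mem_filter.2 ⟨hℓ, e.symm⟩

theorem dem_spec [NeZero q] (hp : Par u q) (y : ZMod q) :
    F.dem y + 2 * u * (F.inc y).card = 400000 * u ∧ 392000 * u ≤ F.dem y := by
  have h1 : 2 * u * (F.inc y).card ≤ 2 * u * 4000 :=
    Nat.mul_le_mul_left _ (F.card_inc_le hp y)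
  unfold dem
  omega

theorem sum_dem [NeZero q] (hp : Par u q) (S : Finset (ZMod q)) :
    ∑ y ∈ S, F.dem y + 2 * u * ∑ y ∈ S, (F.inc y).card = 400000 * u * S.card := by
  rw [mul_sum, ← sum_add_distrib, sum_congr rfl fun y _ => (F.dem_spec hp y).1, sum_const,
    smul_eq_mul]
  ring

theorem sum_inc (S : Finset (ZMod q)) : ∑ y ∈ S, (F.inc y).card =
    ∑ ℓ ∈ F.Lf, ((if ℓ ∈ S then 1 else 0) + if F.ctr ℓ ∈ S then 1 else 0) := by
  simp only [inc, card_filter]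
  rw [sum_comm]
  refine sum_congr rfl fun ℓ hℓ => ?_
  rw [← card_filter, filter_or, card_union_of_disjoint (by
    rw [disjoint_left]
    intro a ha hb
    exact F.leaf_ne hℓ ((mem_filter.1 ha).2.symm.trans (mem_filter.1 hb).2)),
    filter_eq', filter_eq']
  split_ifs <;> simp

theorem sum_inc_univ : ∑ y ∈ Y₀, (F.inc y).card = 2 * F.Lf.card := by
  rw [F.sum_inc, sum_congr rfl fun ℓ hℓ => by
    rw [if_pos (F.leaf_mem ℓ hℓ), if_pos (F.ctr_mem ℓ hℓ)]]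
  rw [sum_const, smul_eq_mul]
  ring

/-- The reserved colours on a set of lines, against the degrees and the leakage. -/
theorem res_colours_le [NeZero q] (hp : Par u q) (S : Finset (ZMod q)) :
    (F.res ∩ colours P S).card ≤
      2 * u * ∑ y ∈ S, (F.inc y).card + 4 * u * totLeak P S := by
  classical
  set T := F.Lf.filter fun ℓ => ℓ ∈ S ∨ F.ctr ℓ ∈ S with hT
  set X := F.Lf.filter fun ℓ =>
    ¬((F.ed ℓ).2 ∈ S ↔ rho (P (F.ed ℓ).1.1) (F.ed ℓ).1.2 (F.ed ℓ).2 ∈ S) with hX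
  have hResS : (F.res ∩ colours P S).card ≤ 4 * u * T.card := by
    have hsub : F.res ∩ colours P S ⊆
        (T ×ˢ (univ : Finset (Pos u × Bool))).image fun p => F.bc p.1 p.2 := by
      intro c hc
      obtain ⟨hc1, hc2⟩ := mem_inter.1 hc
      obtain ⟨⟨ℓ, t⟩, hp', rfl⟩ := mem_image.1 hc1
      have hℓ := (mem_product.1 hp').1
      obtain ⟨y, hy, s, hs⟩ := mem_colours.1 hc2
      refine mem_image.2 ⟨(ℓ, t), mem_product.2 ⟨mem_filter.2 ⟨hℓ, ?_⟩, mem_univ _⟩, rfl⟩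
      rcases (F.bundle hp hℓ t).2.2 y s hs with e | e
      · exact Or.inl (e ▸ hy)
      · exact Or.inr (e ▸ hy)
    refine (card_le_card hsub).trans (card_image_le.trans ?_)
    rw [card_product, card_pos_bool, mul_comm]
  have hTX : 2 * T.card ≤ ∑ y ∈ S, (F.inc y).card + X.card := by
    rw [F.sum_inc, hT, hX, card_filter, card_filter, mul_sum, ← sum_add_distrib]
    refine sum_le_sum fun ℓ hℓ => ?_
    rcases F.ends ℓ hℓ with ⟨e1, e2⟩ | ⟨e1, e2⟩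
    · rw [e2, e1]
      by_cases ha : ℓ ∈ S <;> by_cases hb : F.ctr ℓ ∈ S <;> simp [ha, hb]
    · rw [e1, e2]
      by_cases ha : ℓ ∈ S <;> by_cases hb : F.ctr ℓ ∈ S <;> simp [ha, hb]
  have hXL : X.card ≤ 2 * totLeak P S := by
    let C : Grp → Finset (ZMod q) := fun g =>
      univ.filter fun x => ¬(x ∈ S ↔ rho (P g.1) g.2 x ∈ S)
    have h1 : X.card ≤ ((goodGrps P).biUnion fun g => (C g).image fun x => (g, x)).card := by
      refine card_le_card_of_injOn F.ed (fun ℓ hℓ => ?_) fun ℓ hℓ ℓ' hℓ' h => ?_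
      · obtain ⟨hℓL, hx⟩ := mem_filter.1 (mem_coe.1 hℓ)
        refine mem_coe.2 (mem_biUnion.2 ⟨(F.ed ℓ).1, ?_, mem_image.2 ⟨(F.ed ℓ).2, ?_, rfl⟩⟩)
        · simp [goodGrps, F.good ℓ hℓL]
        · exact mem_filter.2 ⟨mem_univ _, hx⟩
      · have a := (mem_filter.1 (mem_coe.1 hℓ)).1
        have b := (mem_filter.1 (mem_coe.1 hℓ')).1
        exact ((F.ends_iff b ℓ).2 (by rw [← h]; exact (F.ends_iff a ℓ).1 (Or.inl rfl))).resolve_right
          fun e => F.ctr_not ℓ' b (e ▸ a)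
    refine h1.trans (card_biUnion_le.trans ?_)
    rw [totLeak, mul_sum]
    refine sum_le_sum fun g hg => card_image_le.trans ?_
    have hg' : GoodFam P g.1 := by simpa [goodGrps] using hg
    exact crossing_le _ (rho_bijective hp.hq hg'.1 hg'.2 _) S
  have h4 := Nat.mul_le_mul_left (2 * u) (hTX.trans (Nat.add_le_add_left hXL _))
  linarith

end Forest

end Vale.Agent.P045.Ryser
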