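import Vale.Agent.P045.Ryser.Forest
import Vale.Agent.P045.Ryser.Choices

/-!
# The free lines at a point

Disjoint colour sets, leftover colours and bit strings.
-/

namespace Vale.Agent.P045.Ryser

open Finset

set_option maxRecDepth 20000
set_option linter.constructorNameAsVariable false

variable {u q : ℕ} {P : Fin 10 → Coef q} {MY : Option (ZMod q) → Finset (Slot u)}
  {Z : Finset (Pool u q)} {Y₀ : Finset (ZMod q)}

/-- The colours of the unmarked slots of a line outside the excluded ones. -/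
def availCols (P : Fin 10 → Coef q) (MY : Option (ZMod q) → Finset (Slot u))
    (X : Finset (Pool u q)) (y : ZMod q) : Finset (Pool u q) :=
  ((MY (some y))ᶜ.image (col P y)) \ X

/-- Hall's condition. -/
theorem demand_le [NeZero q] (hp : Par u q) (hP : PencilHyp P) (F : Forest P MY Z Y₀)
    (Used : Finset (Pool u q))
    (hS1 : ∀ y ∈ Y₀, (Used ∩ colours P {y}).card + (MY (some y)).card ≤ 340000 * u)
    (hS : ∀ S ⊆ Y₀, (Used ∩ colours P S).card + ∑ y ∈ S, (MY (some y)).card ≤ 600000 * u)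
    (S : Finset (ZMod q)) (hSY : S ⊆ Y₀) :
    ∑ y ∈ S, F.dem y ≤ (S.biUnion (availCols P MY (Used ∪ F.res))).card := by
  classical
  rcases S.eq_empty_or_nonempty with rfl | hSne
  · simp
  set avail := availCols P MY (Used ∪ F.res) with havail
  have hC : (colours (u := u) P S).card ≤ (S.biUnion avail).card + (Used ∩ colours P S).card +
      (F.res ∩ colours P S).card + ∑ y ∈ S, (MY (some y)).card := by
    have hsub : colours (u := u) P S ⊆ ((S.biUnion avail ∪ (Used ∩ colours P S)) ∪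
        (F.res ∩ colours P S)) ∪ S.biUnion fun y => (MY (some y)).image (col P y) := by
      intro c hc
      obtain ⟨y, hy, s, rfl⟩ := mem_colours.1 hc
      simp only [mem_union, mem_inter, hc, and_true, mem_biUnion]
      by_cases hs : s ∈ MY (some y)
      · exact Or.inr ⟨y, hy, mem_image_of_mem _ hs⟩
      by_cases hcu : col P y s ∈ Used
      · exact Or.inl (Or.inl (Or.inr hcu))
      by_cases hcr : col P y s ∈ F.res
      · exact Or.inl (Or.inr hcr)
      refine Or.inl (Or.inl (Or.inl ⟨y, hy, ?_⟩))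
      exact mem_sdiff.2 ⟨mem_image_of_mem _ (mem_compl.2 hs), by simp [hcu, hcr]⟩
    refine (card_le_card hsub).trans ((card_union_le _ _).trans (Nat.add_le_add ?_
      (card_biUnion_le.trans (sum_le_sum fun y _ => card_image_le))))
    exact (card_union_le _ _).trans (Nat.add_le_add_right (card_union_le _ _) _)
  obtain ⟨hge, hge'⟩ := card_colours_ge hp P hP S
  obtain ⟨hL1, hL2⟩ := totLeak_ge hp P hP S
  have hres := F.res_colours_le hp S
  have hs := F.sum_dem hp S
  have hneed : (Used ∩ colours P S).card + ∑ y ∈ S, (MY (some y)).card +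
      (400000 * u * S.card + 4 * u * totLeak P S) ≤ (colours (u := u) P S).card := by
    have hScard := card_pos.2 hSne
    by_cases h1 : S.card = 1
    · obtain ⟨y, rfl⟩ := card_eq_one.1 h1
      have a := hS1 y (hSY (mem_singleton_self y))
      rw [sum_singleton]
      have := Nat.mul_le_mul_left (196 * u) (hL1 h1)
      linarith
    by_cases h2 : S.card + 2 ≤ q
    · have := hS S hSY
      have := Nat.mul_le_mul_left (196 * u) (hL2 (by omega) h2)
      linarith
    · have := hS S hSY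
      have := hge' (by omega)
      linarith [Nat.zero_le (196 * u * totLeak P S)]
  linarith

/-- Disjoint colour sets for the free lines, and leftover colours, one for each line. -/
theorem exists_colour_sets [NeZero q] (hp : Par u q) (hP : PencilHyp P) (F : Forest P MY Z Y₀)
    (htot : ∑ i, (MY i).card ≤ nn u + 2) (hY₀ : q ≤ Y₀.card + 1) (Used : Finset (Pool u q))
    (hUR : Disjoint F.res Used) (hUc : Used.card + nn u * Y₀.card = nn u * (q + 1))
    (hS1 : ∀ y ∈ Y₀, (Used ∩ colours P {y}).card + (MY (some y)).card ≤ 340000 * u)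
    (hS : ∀ S ⊆ Y₀, (Used ∩ colours P S).card + ∑ y ∈ S, (MY (some y)).card ≤ 600000 * u) :
    ∃ (B : ZMod q → Finset (Pool u q)) (β : ZMod q → Pool u q),
      (∀ y ∈ Y₀, B y ⊆ availCols P MY (Used ∪ F.res) y ∧ (B y).card = F.dem y) ∧
      (∀ y ∈ Y₀, ∀ z ∈ Y₀, y ≠ z → Disjoint (B y) (B z)) ∧
      Set.InjOn β (Y₀ : Set (ZMod q)) ∧
      ∀ y ∈ Y₀, (∀ s, col P y s ≠ β y) ∧ β y ∉ Used ∧ β y ∉ F.res ∧ ∀ z ∈ Y₀, β y ∉ B z := by
  classical
  have hu := hp.hu
  have hbig : 20 * nn u < q := hp.hlo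
  have hn : nn u = 400000 * u + 1 := rfl
  set avail := availCols P MY (Used ∪ F.res) with havail
  obtain ⟨B, hB, hBd⟩ := exists_disjoint_choices Y₀ avail F.dem
    fun S hSY => demand_le hp hP F Used hS1 hS S hSY
  obtain ⟨High, hH1, hH2, hH3⟩ := high_colours (u := u) hp P hP
  set Must := High.filter fun c => c ∉ Used ∪ F.res with hMust
  obtain ⟨B', hB', hBd', hMust'⟩ := exists_exchange Y₀ avail B High Must (filter_subset _ _)
    (fun y hy => (hB y hy).1) hBd
    (fun y hy => by rw [(hB y hy).2]; have := (F.dem_spec hp y).2; omega) (fun c hc => by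
      obtain ⟨hcH, hcn⟩ := mem_filter.1 hc
      have hmk : (univ.filter fun y => (MY (some y)).Nonempty).card ≤ nn u + 2 := by
        rw [Fintype.sum_option] at htot
        rw [card_filter]
        refine le_trans (sum_le_sum fun y _ => ?_) (le_trans (Nat.le_add_left _ _) htot)
        split_ifs with h
        · exact h.card_pos
        · exact Nat.zero_le _
      have hsub : linesWith P c ⊆ (Y₀.filter fun y => c ∈ avail y) ∪ (Y₀ᶜ ∪
          univ.filter fun y => (MY (some y)).Nonempty) := by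
        intro y hy
        obtain ⟨s, hs⟩ := mem_linesWith.1 hy
        simp only [mem_union, mem_filter, mem_compl, mem_univ, true_and]
        by_cases hyY : y ∈ Y₀
        swap
        · exact Or.inr (Or.inl hyY)
        by_cases hm : s ∈ MY (some y)
        · exact Or.inr (Or.inr ⟨s, hm⟩)
        exact Or.inl ⟨hyY, mem_sdiff.2 ⟨mem_image.2 ⟨s, mem_compl.2 hm, hs⟩, hcn⟩⟩
      have h1 := (card_le_card hsub).trans ((card_union_le _ _).trans
        (Nat.add_le_add_left (card_union_le _ _) _))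
      rw [card_compl, ZMod.card] at h1
      have h2 := hH2 c hcH
      omega)
  have hBdj : ∀ y ∈ Y₀, Disjoint (B' y) (Used ∪ F.res) := fun y hy =>
    disjoint_left.2 fun c hc => (mem_sdiff.1 ((hB' y hy).1 hc)).2
  set T := (univ : Finset (Pool u q)) \ ((Used ∪ F.res) ∪ Y₀.biUnion B') with hT
  have hTc : Y₀.card = T.card := by
    have h1 : ((Used ∪ F.res) ∪ Y₀.biUnion B').card =
        Used.card + F.res.card + ∑ y ∈ Y₀, F.dem y := by
      rw [card_union_of_disjoint ((disjoint_biUnion_right _ _ _).2 fun y hy => (hBdj y hy).symm),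
        card_union_of_disjoint hUR.symm, card_biUnion hBd',
        sum_congr rfl fun y hy => ((hB' y hy).2.trans (hB y hy).2)]
    have h2 := card_sdiff_add_card_eq_card (subset_univ ((Used ∪ F.res) ∪ Y₀.biUnion B'))
    rw [← hT, card_univ, card_pool hp, h1, F.card_res hp] at h2
    have h3 := F.sum_dem hp Y₀
    rw [F.sum_inc_univ] at h3
    unfold rr at h2
    rw [hn] at hUc h2
    linarith
  let bad : ZMod q → Finset (Pool u q) := fun y => univ.image (col P y)
  have hTout : ∀ c ∈ T, c ∉ Used ∧ c ∉ F.res ∧ ∀ y ∈ Y₀, c ∉ B' y := fun c hc => by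
    simpa only [hT, mem_sdiff, mem_univ, true_and, mem_union, mem_biUnion, not_or, not_exists,
      not_and, and_assoc] using hc
  have : Nonempty (Pool u q) := ⟨Sum.inr (Sum.inl (((0, 0), ⟨0, by omega⟩), 0))⟩
  obtain ⟨β, hβi, hβT, hβb⟩ := exists_avoiding_bijection Y₀ T bad hTc (fun y _ => by
      have h1 : (T ∩ bad y).card ≤ 800000 * u :=
        ((card_le_card inter_subset_right).trans card_image_le).trans
          (by rw [card_univ, card_slot])
      rw [← hTc]
      omega)
    (fun c hc => by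
      obtain ⟨t1, t2, t3⟩ := hTout c hc
      have hcH : c ∉ High := fun h => by
        obtain ⟨y, hy, hy'⟩ := hMust' c (mem_filter.2 ⟨h, by simp [t1, t2]⟩)
        exact t3 y hy hy'
      refine le_trans (card_le_card fun y hy => ?_) (hH3 c hcH)
      obtain ⟨s, -, hs⟩ := mem_image.1 (mem_filter.1 hy).2
      exact mem_linesWith.2 ⟨s, hs⟩)
  refine ⟨B', β, fun y hy => ⟨(hB' y hy).1, (hB' y hy).2.trans (hB y hy).2⟩, hBd', hβi,
    fun y hy => ⟨fun s hs => hβb y hy (mem_image.2 ⟨s, mem_univ _, hs⟩), ?_⟩⟩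
  exact hTout _ (hβT ▸ mem_image_of_mem β hy)

/-- The choices at a line for one position and bit. -/
def Forest.pick (F : Forest P MY Z Y₀) (y : ZMod q) (k : Pos u) (b : Bool) : Finset (Slot u) :=
  (F.inc y).image fun ℓ => F.slot y ℓ k b

/-- The unmarked slots with colours in the given set. -/
def baseSlots (P : Fin 10 → Coef q) (MY : Option (ZMod q) → Finset (Slot u))
    (B : Finset (Pool u q)) (y : ZMod q) : Finset (Slot u) :=
  (MY (some y))ᶜ.filter fun s => col P y s ∈ B

theorem card_baseSlots [NeZero q] (hp : Par u q) {B X : Finset (Pool u q)} {y : ZMod q}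
    (h : B ⊆ availCols P MY X y) : (baseSlots P MY B y).card = B.card := by
  rw [← card_image_of_injective (baseSlots P MY B y)
    (f := col P y) (colO_injective hp P (some y))]
  congr 1
  ext c
  refine ⟨fun h' => ?_, fun h' => ?_⟩
  · obtain ⟨s, hs, rfl⟩ := mem_image.1 h'
    exact (mem_filter.1 hs).2
  · obtain ⟨s, hs, rfl⟩ := mem_image.1 (mem_sdiff.1 (h h')).1
    exact mem_image_of_mem _ (mem_filter.2 ⟨hs, h'⟩)

theorem slot_not_base [NeZero q] (hp : Par u q) (F : Forest P MY Z Y₀)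
    {B Used : Finset (Pool u q)} {y ℓ : ZMod q}
    (hB : B ⊆ availCols P MY (Used ∪ F.res) y) (h : ℓ ∈ F.inc y) (k : Pos u) (b : Bool) :
    F.slot y ℓ k b ∉ baseSlots P MY B y := by
  intro hm
  have h1 := (mem_filter.1 hm).2
  rw [(F.col_slot hp h k b).1] at h1
  exact (mem_sdiff.1 (hB h1)).2 (mem_union_right _ (F.bc_mem_res (F.mem_inc.1 h).1 _))

/-- Bit strings for all stars. -/
theorem exists_strings [NeZero q] (hp : Par u q) (F : Forest P MY Z Y₀)
    {κ : Option (ZMod q) → Finset (Finset (Slot u)) → Pool u q} (hκ : IsGood (suppL P) κ)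
    (MP : Option (ZMod q) → Finset (Finset (Finset (Slot u))))
    (hMP : ∑ i, (MP i).card ≤ nn u + 2) (B : ZMod q → Finset (Pool u q))
    (Used : Finset (Pool u q))
    (hB : ∀ y ∈ Y₀, B y ⊆ availCols P MY (Used ∪ F.res) y ∧ (B y).card = F.dem y)
    (β : ZMod q → Pool u q) (hβ : ∀ y ∈ Y₀, ∀ s, col P y s ≠ β y) :
    ∃ W : ZMod q → Pos u → Bool, ∀ y ∈ Y₀,
      let c := if y ∈ F.Lf then F.ctr y else y
      κ (some y) (piOf (fill (baseSlots P MY (B y) y) (F.pick y) (W c))) = β y ∧
        piOf (fill (baseSlots P MY (B y) y) (F.pick y) (W c)) ∉ MP (some y) := by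
  classical
  let base : ZMod q → Finset (Slot u) := fun y => baseSlots P MY (B y) y
  have hinj : ∀ y ∈ Y₀, Function.Injective fun w => piOf (fill (base y) (F.pick y) w) := by
    intro y hy
    refine piOf_fill_injective _ _ (card_pos.1 ?_) fun k b => ?_
    · simp only [base]
      rw [card_baseSlots hp (hB y hy).1, (hB y hy).2]
      have := (F.dem_spec hp y).2
      have := hp.hu
      omega
    obtain ⟨ℓ, hℓ⟩ := F.inc_nonempty hy
    refine ⟨F.slot y ℓ k b, mem_image_of_mem _ hℓ, slot_not_base hp F (hB y hy).1 hℓ k b,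
      fun k' b' hm => ?_⟩
    obtain ⟨ℓ', hℓ', e⟩ := mem_image.1 hm
    obtain ⟨-, e1, e2⟩ := F.slot_inj hp hℓ' hℓ e
    exact ⟨e1, e2⟩
  let star : ZMod q → Finset (Option (ZMod q)) := fun c =>
    (insert c (F.Lf.filter fun ℓ => F.ctr ℓ = c)).image some
  have hW : ∀ c, ∃ w : Pos u → Bool, c ∈ Y₀ → ∀ i ∈ star c,
      κ i (piOf (fill (base (i.getD 0)) (F.pick (i.getD 0)) w)) = β (i.getD 0) ∧
      piOf (fill (base (i.getD 0)) (F.pick (i.getD 0)) w) ∉ MP i := by
    intro c
    by_cases hc : c ∈ Y₀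
    swap
    · exact ⟨fun _ => false, fun h => absurd h hc⟩
    have hmem : ∀ i ∈ star c, ∃ y ∈ Y₀, i = some y := by
      intro i hi
      obtain ⟨y, hy, rfl⟩ := mem_image.1 hi
      refine ⟨y, ?_, rfl⟩
      rcases mem_insert.1 hy with rfl | hy
      · exact hc
      · exact F.leaf_mem y (mem_filter.1 hy).1
    obtain ⟨w, hw⟩ := exists_attempt hκ (star c)
      (card_image_le.trans ((card_insert_le _ _).trans (Nat.add_le_add_right
        (star_size_le hp.hq P F.Lf F.ctr F.ed c F.good F.ends) 1)))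
      (fun i => β (i.getD 0)) (fun i hi => by
        obtain ⟨y, hy, rfl⟩ := hmem i hi
        simp only [suppL, mem_filter, mem_univ, true_and]
        exact hβ y hy)
      (fun i => base (i.getD 0)) (fun i => F.pick (i.getD 0)) MP
      (lt_of_le_of_lt ((sum_le_sum_of_subset (subset_univ _)).trans hMP) (marks_lt_two_pow hp))
      (fun i hi => by
        obtain ⟨y, hy, rfl⟩ := hmem i hi
        exact hinj y hy)
    exact ⟨w, fun _ => hw⟩
  choose W hW using hW
  refine ⟨W, fun y hy => ?_⟩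
  by_cases h : y ∈ F.Lf
  · simp only [if_pos h]
    exact hW (F.ctr y) (F.ctr_mem y h) (some y)
      (mem_image_of_mem _ (mem_insert_of_mem (mem_filter.2 ⟨h, rfl⟩)))
  · simp only [if_neg h]
    exact hW y hy (some y) (mem_image_of_mem _ (mem_insert_self _ _))

/-- On the free lines: slot sets using new colours, each colour once. -/
theorem exists_free [NeZero q] (hp : Par u q) (hP : PencilHyp P)
    {κ : Option (ZMod q) → Finset (Finset (Slot u)) → Pool u q} (hκ : IsGood (suppL P) κ)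
    (MP : Option (ZMod q) → Finset (Finset (Finset (Slot u))))
    (htot : ∑ i, ((MY i).card + (MP i).card) ≤ nn u + 2)
    (hY₀ : q ≤ Y₀.card + 1) (Used : Finset (Pool u q))
    (hZ : Z.card ≤ 2) (hUc : Used.card + nn u * Y₀.card = nn u * (q + 1))
    (hUZ : ∀ c ∈ Used, c ∈ Z ∨ (∃ s, c = specCol s) ∨ c ∈ colours P Y₀ᶜ)
    (hS1 : ∀ y ∈ Y₀, (Used ∩ colours P {y}).card + (MY (some y)).card ≤ 340000 * u)
    (hS : ∀ S ⊆ Y₀, (Used ∩ colours P S).card + ∑ y ∈ S, (MY (some y)).card ≤ 600000 * u) :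
    ∃ A : ZMod q → Finset (Slot u),
      (∀ y ∈ Y₀, (A y).card = nn u - 1 ∧ Disjoint (A y) (MY (some y)) ∧
        piOf (A y) ∉ MP (some y) ∧ Disjoint (cols P κ (some y) (A y)) Used) ∧
      ∀ y ∈ Y₀, ∀ z ∈ Y₀, y ≠ z →
        Disjoint (cols P κ (some y) (A y)) (cols P κ (some z) (A z)) := by
  classical
  have htotY : ∑ i, (MY i).card ≤ nn u + 2 :=
    (sum_le_sum fun i _ => Nat.le_add_right _ _).trans htot
  have htotP : ∑ i, (MP i).card ≤ nn u + 2 :=
    (sum_le_sum fun i _ => Nat.le_add_left _ _).trans htot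
  obtain ⟨F⟩ := exists_forest hp P hP MY Z hZ htotY Y₀ hY₀
  have hUR := F.res_disjoint hp Used hUZ
  obtain ⟨B, β, hB, hBd, hβi, hβ⟩ := exists_colour_sets hp hP F htotY hY₀ Used hUR hUc hS1 hS
  obtain ⟨W, hW⟩ := exists_strings hp F hκ MP htotP B Used hB β fun y hy => (hβ y hy).1
  let cen : ZMod q → ZMod q := fun y => if y ∈ F.Lf then F.ctr y else y
  let A : ZMod q → Finset (Slot u) := fun y =>
    fill (baseSlots P MY (B y) y) (F.pick y) (W (cen y))
  have hcen : ∀ y ℓ, ℓ ∈ F.inc y → cen y = F.ctr ℓ := by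
    intro y ℓ h
    obtain ⟨hℓ, e | e⟩ := F.mem_inc.1 h
    · simp [cen, e, hℓ]
    · simp [cen, e, F.ctr_not ℓ hℓ]
  have hBout : ∀ y ∈ Y₀, ∀ c ∈ B y, c ∉ Used ∧ c ∉ F.res := fun y hy c hc => by
    simpa [not_or] using (mem_sdiff.1 ((hB y hy).1 hc)).2
  have hcls : ∀ y ∈ Y₀, ∀ c ∈ cols P κ (some y) (A y), c ∈ B y ∨ c = β y ∨
      ∃ ℓ ∈ F.inc y, ∃ k, c = F.bc ℓ (Forest.tag y ℓ k (W (F.ctr ℓ) k)) := by
    intro y hy c hc
    rcases mem_insert.1 hc with rfl | hc
    · exact Or.inr (Or.inl (hW y hy).1)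
    obtain ⟨s, hs, rfl⟩ := mem_image.1 hc
    rcases mem_union.1 hs with hs | hs
    · exact Or.inl (mem_filter.1 hs).2
    · obtain ⟨k, -, hk⟩ := mem_biUnion.1 hs
      obtain ⟨ℓ, hℓ, rfl⟩ := mem_image.1 hk
      refine Or.inr (Or.inr ⟨ℓ, hℓ, k, ?_⟩)
      simp only [colO]
      rw [(F.col_slot hp hℓ _ _).1, hcen y ℓ hℓ]
  refine ⟨A, fun y hy => ⟨?_, ?_, (hW y hy).2, ?_⟩, fun y hy z hz hyz => ?_⟩
  · have e : (univ.biUnion fun k => F.pick y k (W (cen y) k)) =
        (F.inc y ×ˢ (univ : Finset (Pos u))).image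
          fun p => F.slot y p.1 p.2 (W (cen y) p.2) := by
      ext s
      simp only [Forest.pick, mem_biUnion, mem_image, mem_product, mem_univ, true_and, and_true]
      constructor
      · rintro ⟨k, ℓ, hℓ, rfl⟩; exact ⟨(ℓ, k), hℓ, rfl⟩
      · rintro ⟨p, hp', rfl⟩; exact ⟨p.2, p.1, hp', rfl⟩
    simp only [A, fill]
    rw [e, card_union_of_disjoint, card_image_of_injOn, card_product,
      card_baseSlots hp (hB y hy).1, (hB y hy).2, card_univ]
    · simp only [Fintype.card_prod, Fintype.card_fin]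
      have := (F.dem_spec hp y).1
      unfold nn
      rw [mul_comm (F.inc y).card]
      omega
    · intro p hp' p' hp'' h
      obtain ⟨e1, e2, -⟩ := F.slot_inj hp (mem_product.1 hp').1 (mem_product.1 hp'').1 h
      exact Prod.ext e1 e2
    · rw [disjoint_right]
      intro s hs
      obtain ⟨p, hp', rfl⟩ := mem_image.1 hs
      exact slot_not_base hp F (hB y hy).1 (mem_product.1 hp').1 _ _
  · rw [disjoint_left]
    intro s hs
    rcases mem_union.1 hs with hs | hs
    · exact mem_compl.1 (mem_filter.1 hs).1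
    · obtain ⟨k, -, hk⟩ := mem_biUnion.1 hs
      obtain ⟨ℓ, hℓ, rfl⟩ := mem_image.1 hk
      exact (F.col_slot hp hℓ _ _).2
  · rw [disjoint_left]
    intro c hc hcU
    rcases hcls y hy c hc with h | rfl | ⟨ℓ, hℓ, k, rfl⟩
    · exact (hBout y hy c h).1 hcU
    · exact (hβ y hy).2.1 hcU
    · exact disjoint_left.1 hUR (F.bc_mem_res (F.mem_inc.1 hℓ).1 _) hcU
  · rw [disjoint_left]
    intro c hc hc'
    rcases hcls y hy c hc with h | rfl | ⟨ℓ, hℓ, k, rfl⟩ <;>
      rcases hcls z hz _ hc' with h' | h' | ⟨ℓ', hℓ', k', h'⟩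
    · exact disjoint_left.1 (hBd y hy z hz hyz) h h'
    · exact (hβ z hz).2.2.2 y hy (h' ▸ h)
    · exact (hBout y hy c h).2 (h' ▸ F.bc_mem_res (F.mem_inc.1 hℓ').1 _)
    · exact (hβ y hy).2.2.2 z hz h'
    · exact hyz (hβi hy hz h')
    · exact (hβ y hy).2.2.1 (h' ▸ F.bc_mem_res (F.mem_inc.1 hℓ').1 _)
    · exact (hBout z hz _ h').2 (F.bc_mem_res (F.mem_inc.1 hℓ).1 _)
    · exact (hβ z hz).2.2.1 (h' ▸ F.bc_mem_res (F.mem_inc.1 hℓ).1 _)
    · obtain ⟨rfl, e⟩ := F.bc_inj hp (F.mem_inc.1 hℓ).1 (F.mem_inc.1 hℓ').1 h'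
      simp only [Forest.tag, Prod.mk.injEq] at e
      obtain ⟨rfl, e⟩ := e
      rcases (F.mem_inc.1 hℓ).2 with e1 | e1 <;> rcases (F.mem_inc.1 hℓ').2 with e2 | e2
      · exact hyz (e1.trans e2.symm)
      · have hz' : z ≠ ℓ := fun h => F.leaf_ne (F.mem_inc.1 hℓ).1 (h.symm.trans e2)
        simp [e1, hz'] at e
      · have hy' : y ≠ ℓ := fun h => F.leaf_ne (F.mem_inc.1 hℓ).1 (h.symm.trans e1)
        simp [e2, hy'] at e
      · exact hyz (e1.trans e2.symm)

end Vale.Agent.P045.Ryser
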