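import Vale.Agent.P045.Ryser.Params

/-!
# The local statement: at one point, an edge avoiding the marks exists
-/

namespace Vale.Agent.P045.Ryser

open Finset

variable {u q : ℕ}

/-- The vertices seen from one point: a line of the pencil with a slot or a partition. -/
abbrev LVert (u q : ℕ) : Type := Option (ZMod q) × (Slot u ⊕ Finset (Finset (Slot u)))

/-- The colour of a vertex seen from one point. -/
def colV (P : Fin 10 → Coef q) (κ : Option (ZMod q) → Finset (Finset (Slot u)) → Pool u q) :
    LVert u q → Pool u q
  | (i, Sum.inl s) => colO P i s
  | (i, Sum.inr p) => κ i p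

/-- The vertices of the edge given by a choice of slot sets. -/
def edgeL (A : Option (ZMod q) → Finset (Slot u)) : Set (LVert u q) :=
  {v | (∃ s ∈ A v.1, v.2 = Sum.inl s) ∨ v.2 = Sum.inr (piOf (A v.1))}

/-- The colours available to the partition vertices of a line. -/
noncomputable def suppL [NeZero q] (P : Fin 10 → Coef q) (i : Option (ZMod q)) :
    Finset (Pool u q) :=
  haveI := Classical.decEq (Pool u q)
  Finset.univ.filter fun c => ∀ s, colO P i s ≠ c

end Vale.Agent.P045.Ryser
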