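import Mathlib

/-!
# Index types and colours for the counterexample to Ryser's bound

`u` is the base parameter, `q` a prime.  Ten families of two hundred groups of
`200 * u` layers; every line has two slots per layer.
-/

namespace Vale.Agent.P045.Ryser

open Finset

/-- A group: a family and a member of the family. -/
abbrev Grp : Type := Fin 10 × Fin 200

/-- A layer. -/
abbrev Lay (u : ℕ) : Type := Grp × Fin (200 * u)

/-- The slots (`Y`-vertices) of one line system. -/
abbrev Slot (u : ℕ) : Type := Lay u × Bool

/-- The uniformity of one line system. -/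
def nn (u : ℕ) : ℕ := 400000 * u + 1

/-- The number of parts. -/
def rr (u q : ℕ) : ℕ := nn u * (q + 1)

/-- The number of filler colours. -/
@[irreducible] def fillN (u q : ℕ) : ℕ := rr u q - 400000 * u * (q + 11)

/-- The colours: layer colours, eleven extra colours per layer, and filler. -/
abbrev Pool (u q : ℕ) : Type :=
  (Lay u × ZMod q) ⊕ ((Lay u × Fin 11) ⊕ Fin (fillN u q))

set_option synthInstance.maxSize 1000 in
/-- Decidable equality of colours. -/
instance decEqPool (u q : ℕ) : DecidableEq (Pool u q) := inferInstance

set_option synthInstance.maxSize 1000 in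
/-- Decidable equality of slots and partitions. -/
instance decEqSlotSum (u : ℕ) : DecidableEq (Slot u ⊕ Finset (Finset (Slot u))) := inferInstance

/-- The numerical hypotheses on the parameters. -/
structure Par (u q : ℕ) : Prop where
  hu : 1000000 ≤ u
  hq : q.Prime
  hlo : 20 * nn u < q
  hhi : q ≤ 40 * nn u

/-- The unordered partition of the slots given by a set of slots. -/
def piOf {u : ℕ} (A : Finset (Slot u)) : Finset (Finset (Slot u)) := {A, Aᶜ}

/-- The affine data of one family in one pencil. -/
structure Coef (q : ℕ) where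
  A1 : ZMod q
  B1 : ZMod q
  A2 : ZMod q
  B2 : ZMod q

variable {u q : ℕ}

/-- The first index function. -/
def psi1 (c : Coef q) (y : ZMod q) : ZMod q := c.A1 * y + c.B1

/-- The second index function of the member `j`. -/
def psi2 (c : Coef q) (j : Fin 200) (y : ZMod q) : ZMod q := c.A2 * y + c.B2 + (j.val : ZMod q)

/-- The colour of a slot in layer `i` given the two index values of the line. -/
def colVal (i : Lay u) (b : Bool) (v1 v2 : ZMod q) : Pool u q :=
  if b = false then Sum.inl (i, v1)
  else if v2 = v1 then Sum.inr (Sum.inl (i, 8))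
  else if v2.val / 8 = i.2.val then
    Sum.inr (Sum.inl (i, ⟨v2.val % 8, (Nat.mod_lt _ (by norm_num)).trans (by norm_num)⟩))
  else Sum.inl (i, v2)

/-- The colour of a slot on the line with parameter `y` of a pencil. -/
def col (P : Fin 10 → Coef q) (y : ZMod q) (s : Slot u) : Pool u q :=
  colVal s.1 s.2 (psi1 (P s.1.1.1) y) (psi2 (P s.1.1.1) s.1.1.2 y)

/-- The colour of a slot on a special line. -/
def specCol (s : Slot u) : Pool u q :=
  Sum.inr (Sum.inl (s.1, if s.2 then 9 else 10))

/-- The colour of a slot on the lines of a pencil; `none` is the special line. -/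
def colO (P : Fin 10 → Coef q) : Option (ZMod q) → Slot u → Pool u q
  | none => specCol
  | some y => col P y

/-- A family is good in a pencil if both index functions are bijective. -/
def GoodFam (P : Fin 10 → Coef q) (a : Fin 10) : Prop := (P a).A1 ≠ 0 ∧ (P a).A2 ≠ 0

/-- The hypotheses on the coefficients of a pencil. -/
structure PencilHyp (P : Fin 10 → Coef q) : Prop where
  nonzero : ∀ a, (P a).A1 ≠ 0 ∨ (P a).A2 ≠ 0
  bad_unique : ∀ a b, ¬ GoodFam P a → ¬ GoodFam P b → a = b

/-- The permutation of a pencil belonging to a member of a good family. -/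
def rho (c : Coef q) (j : Fin 200) (y : ZMod q) : ZMod q :=
  c.A1⁻¹ * c.A2 * y + c.A1⁻¹ * (c.B2 - c.B1 + (j.val : ZMod q))

/-- Every prescribed target tuple on at most 4001 lines is attained by some bit string. -/
def IsGood {ι : Type} (supp : ι → Finset (Pool u q))
    (κ : ι → Finset (Finset (Slot u)) → Pool u q) : Prop :=
  (∀ i p, κ i p ∈ supp i) ∧
  ∀ D : Finset ι, D.card ≤ 4001 → ∀ (tgt : ι → Pool u q) (core : ι → Finset (Slot u))
    (pick : ι → Fin u → Bool → Finset (Slot u)),
    (∀ i ∈ D, tgt i ∈ supp i) →
    (∀ i ∈ D, Function.Injective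
      fun w : Fin u → Bool => piOf (core i ∪ univ.biUnion fun k => pick i k (w k))) →
    ∃ w : Fin u → Bool,
      ∀ i ∈ D, κ i (piOf (core i ∪ univ.biUnion fun k => pick i k (w k))) = tgt i

end Vale.Agent.P045.Ryser
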