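import Vale.Agent.P045.Ryser.Local
import Vale.Agent.P045.Ryser.Expansion

/-!
# Colours of a set of lines in a pencil

The union of the colours on a set of lines exceeds `nn u - 1` per line by a leakage term, and all
but few colours lie on at most three lines.
-/

namespace Vale.Agent.P045.Ryser

open Finset

variable {u q : ℕ}

theorem card_le_sum_fibres {α ι : Type*} [Fintype ι] [DecidableEq α] (A : Finset α)
    (X : ι → Finset α) (h : ∀ c ∈ A, ∃ i, c ∈ X i) : A.card ≤ ∑ i, (X i).card :=
  (card_le_card fun c hc => by simpa using h c hc).trans card_biUnion_le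

theorem three_cover {α : Type*} [Fintype α] [DecidableEq α] (a r : α → Prop) [DecidablePred a]
    [DecidablePred r] : Fintype.card α ≤ (univ.filter fun x => a x ∧ ¬ r x).card +
      ((univ.filter fun x => ¬ a x).card + (univ.filter r).card) := by
  refine le_trans ?_ ((card_union_le _ _).trans (Nat.add_le_add_left (card_union_le _ _) _))
  refine card_le_card fun x _ => ?_
  simp only [mem_union, mem_filter, mem_univ, true_and]
  tauto

theorem card_filter_le_one {α : Type*} [Fintype α] (r : α → Prop) [DecidablePred r]
    (h : ∀ a b, r a → r b → a = b) : (univ.filter r).card ≤ 1 :=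
  card_le_one.2 fun a ha b hb => h a b (mem_filter.1 ha).2 (mem_filter.1 hb).2

theorem mem_image_filter_univ {α β : Type*} [Fintype α] [DecidableEq β] (r : α → Prop)
    [DecidablePred r] (f : α → β) {c : β} :
    c ∈ (univ.filter r).image f ↔ ∃ a, r a ∧ f a = c := by
  simp

/-- The layer of a colour. -/
def layOf : Pool u q → Option (Lay u)
  | Sum.inl p => some p.1
  | Sum.inr (Sum.inl p) => some p.1
  | Sum.inr (Sum.inr _) => none

theorem layOf_colVal (i : Lay u) (b : Bool) (v1 v2 : ZMod q) :
    layOf (colVal i b v1 v2) = some i := by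
  unfold colVal; split_ifs <;> rfl

theorem layOf_col (P : Fin 10 → Coef q) (y : ZMod q) (s : Slot u) :
    layOf (col P y s) = some s.1 := layOf_colVal _ _ _ _

theorem colVal_false (i : Lay u) (v1 v2 : ZMod q) : colVal i false v1 v2 = Sum.inl (i, v1) := if_pos rfl

theorem colVal_eq (i : Lay u) (v : ZMod q) : colVal i true v v = Sum.inr (Sum.inl (i, 8)) := by
  unfold colVal; simp

theorem colVal_plain (i : Lay u) {v1 v2 : ZMod q} (h : v2 ≠ v1) (hl : v2.val / 8 ≠ i.2.val) :
    colVal i true v1 v2 = Sum.inl (i, v2) := by
  unfold colVal; simp [h, hl]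

theorem colVal_split (i : Lay u) {v1 v2 : ZMod q} (h : v2 ≠ v1) (hl : v2.val / 8 = i.2.val) :
    colVal i true v1 v2 = Sum.inr (Sum.inl
      (i, ⟨v2.val % 8, (Nat.mod_lt _ (by norm_num)).trans (by norm_num)⟩)) := by
  unfold colVal; simp [h, hl]

theorem colVal_true_ne_false (i : Lay u) (v1 v2 : ZMod q) :
    colVal i true v1 v2 ≠ Sum.inl (i, v1) := by
  by_cases h : v2 = v1
  · subst h; rw [colVal_eq]; simp
  · by_cases hl : v2.val / 8 = i.2.val
    · rw [colVal_split i h hl]; simp
    · rw [colVal_plain i h hl]; simp [h]

/-- Equal colours of second slots come from equal values, except for coincidences. -/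
theorem colVal_true_inj [NeZero q] (i : Lay u) {v1 v2 v1' v2' : ZMod q}
    (h : colVal i true v1 v2 = colVal i true v1' v2') :
    (v2 = v1 ∧ v2' = v1') ∨ (v2 ≠ v1 ∧ v2' ≠ v1' ∧ v2 = v2') := by
  by_cases a : v2 = v1 <;> by_cases b : v2' = v1'
  · exact Or.inl ⟨a, b⟩
  · exfalso
    subst a
    by_cases hl : v2'.val / 8 = i.2.val
    · rw [colVal_eq, colVal_split i b hl] at h
      simp [Fin.ext_iff] at h; omega
    · rw [colVal_eq, colVal_plain i b hl] at h
      simp at h
  · exfalso
    subst b
    by_cases hl : v2.val / 8 = i.2.val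
    · rw [colVal_eq, colVal_split i a hl] at h
      simp [Fin.ext_iff] at h; omega
    · rw [colVal_eq, colVal_plain i a hl] at h
      simp at h
  · refine Or.inr ⟨a, b, ?_⟩
    by_cases hl : v2.val / 8 = i.2.val <;> by_cases hl' : v2'.val / 8 = i.2.val
    · rw [colVal_split i a hl, colVal_split i b hl'] at h
      simp [Fin.ext_iff] at h
      exact ZMod.val_injective q (by omega)
    · rw [colVal_split i a hl, colVal_plain i b hl'] at h; simp at h
    · rw [colVal_plain i a hl, colVal_split i b hl'] at h; simp at h
    · rw [colVal_plain i a hl, colVal_plain i b hl'] at h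
      simpa using h

theorem val_nat (hp : Par u q) {m : ℕ} (hm : m < 2000 * u) : ((m : ℕ) : ZMod q).val = m :=
  ZMod.val_cast_of_lt (by have := hp.hlo; unfold nn at this; omega)

theorem member_injective (hp : Par u q) {j j' : Fin 200}
    (h : ((j.val : ℕ) : ZMod q) = ((j'.val : ℕ) : ZMod q)) : j = j' := by
  have hu := hp.hu
  have hj := j.isLt
  have hj' := j'.isLt
  have := congrArg ZMod.val h
  rw [val_nat hp (by omega), val_nat hp (by omega)] at this
  exact Fin.ext this

/-- Eight consecutive values, split off in the layer `l`. -/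
noncomputable def block [NeZero q] (l : Fin (200 * u)) : Finset (ZMod q) :=
  Finset.univ.filter fun z => z.val / 8 = l.val

theorem block_card [NeZero q] (hp : Par u q) (l : Fin (200 * u)) : 8 ≤ (block (q := q) l).card := by
  have hm : ∀ k : Fin 8, 8 * l.val + k.val < 2000 * u := fun k => by omega
  calc 8 = (Finset.univ : Finset (Fin 8)).card := by simp
    _ ≤ _ := by
      refine card_le_card_of_injOn (fun k => ((8 * l.val + k.val : ℕ) : ZMod q)) (fun k _ => ?_) ?_
      · simp only [block, coe_filter, mem_univ, true_and, Set.mem_ofPred_eq]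
        rw [val_nat hp (hm k)]; omega
      · intro a _ b _ hab
        have := congrArg ZMod.val hab
        simp only [val_nat hp (hm a), val_nat hp (hm b)] at this
        exact Fin.ext (by omega)

/-- The group leaves every line fixed. -/
def IdGrp (P : Fin 10 → Coef q) (g : Grp) : Prop :=
  (P g.1).A1 = (P g.1).A2 ∧ (P g.1).B1 = (P g.1).B2 + (g.2.val : ZMod q)

theorem psi_eq_of_id {P : Fin 10 → Coef q} {g : Grp} (h : IdGrp P g) (y : ZMod q) :
    psi2 (P g.1) g.2 y = psi1 (P g.1) y := by
  simp only [psi1, psi2, h.1, h.2]; ring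

theorem psi1_inj [NeZero q] (hp : Par u q) (c : Coef q) (h : c.A1 ≠ 0) :
    Function.Injective (psi1 c) := by
  have := Fact.mk hp.hq
  intro a b hab
  simpa [psi1, h] using hab

theorem psi2_inj [NeZero q] (hp : Par u q) (c : Coef q) (j : Fin 200) (h : c.A2 ≠ 0) :
    Function.Injective (psi2 c j) := by
  have := Fact.mk hp.hq
  intro a b hab
  simpa [psi2, h] using hab

theorem psi1_rho [NeZero q] (hp : Par u q) (c : Coef q) (j : Fin 200) (h : c.A1 ≠ 0)
    (y : ZMod q) : psi1 c (rho c j y) = psi2 c j y := by
  have := Fact.mk hp.hq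
  simp only [psi1, psi2, rho]
  rw [mul_add, ← mul_assoc, ← mul_assoc, ← mul_assoc, mul_inv_cancel₀ h]
  ring

theorem meet_unique [NeZero q] (hp : Par u q) (P : Fin 10 → Coef q) (g : Grp) (h : ¬ IdGrp P g)
    {y y' : ZMod q} (e : psi2 (P g.1) g.2 y = psi1 (P g.1) y)
    (e' : psi2 (P g.1) g.2 y' = psi1 (P g.1) y') : y = y' := by
  have := Fact.mk hp.hq
  simp only [psi1, psi2] at e e'
  have e2 : ((P g.1).A1 - (P g.1).A2) * (y - y') = 0 := by linear_combination e' - e
  rcases mul_eq_zero.1 e2 with h1 | h1
  · exfalso
    refine h ⟨sub_eq_zero.1 h1, ?_⟩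
    linear_combination -e - y * h1
  · exact sub_eq_zero.1 h1

theorem idGrp_unique [NeZero q] (hp : Par u q) (P : Fin 10 → Coef q) {g g' : Grp}
    (h : IdGrp P g) (h' : IdGrp P g') (e : g.1 = g'.1) : g = g' := by
  refine Prod.ext e (member_injective hp ?_)
  have a := h.2
  have b := h'.2
  rw [e] at a
  exact add_left_cancel (a.symm.trans b)

/-- The groups of the good families. -/
noncomputable def goodGrps (P : Fin 10 → Coef q) : Finset Grp :=
  haveI := Classical.decPred fun g : Grp => GoodFam P g.1
  Finset.univ.filter fun g : Grp => GoodFam P g.1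

/-- The total leakage of a set of lines over the good groups. -/
noncomputable def totLeak [NeZero q] (P : Fin 10 → Coef q) (S : Finset (ZMod q)) : ℕ :=
  ∑ g ∈ goodGrps P, leak (rho (P g.1) g.2) S

/-- The colours on a set of lines. -/
noncomputable def colours [NeZero q] (P : Fin 10 → Coef q) (S : Finset (ZMod q)) :
    Finset (Pool u q) :=
  haveI := Classical.decEq (Pool u q)
  (S ×ˢ (Finset.univ : Finset (Slot u))).image fun p => col P p.1 p.2

/-- The lines carrying a colour. -/
noncomputable def linesWith [NeZero q] (P : Fin 10 → Coef q) (c : Pool u q) : Finset (ZMod q) :=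
  haveI := Classical.decPred fun y => ∃ s : Slot u, col P y s = c
  Finset.univ.filter fun y => ∃ s : Slot u, col P y s = c

/-- The colours of one layer on a set of lines. -/
noncomputable def layCols [NeZero q] (P : Fin 10 → Coef q) (i : Lay u) (S : Finset (ZMod q)) :
    Finset (Pool u q) :=
  haveI := Classical.decEq (Pool u q)
  S.image (fun y => col P y (i, false)) ∪ S.image (fun y => col P y (i, true))

theorem mem_layCols [NeZero q] {P : Fin 10 → Coef q} {i : Lay u} {S : Finset (ZMod q)}
    {c : Pool u q} : c ∈ layCols P i S ↔ ∃ y ∈ S, ∃ b, col P y (i, b) = c := by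
  simp only [layCols, mem_union, mem_image, Bool.exists_bool]
  grind

theorem mem_colours [NeZero q] {P : Fin 10 → Coef q} {S : Finset (ZMod q)} {c : Pool u q} :
    c ∈ colours P S ↔ ∃ y ∈ S, ∃ s, col P y s = c := by
  simp [colours]

theorem layOf_of_mem [NeZero q] {P : Fin 10 → Coef q} {i : Lay u} {S : Finset (ZMod q)}
    {c : Pool u q} (h : c ∈ layCols P i S) : layOf c = some i := by
  obtain ⟨y, -, b, rfl⟩ := mem_layCols.1 h
  exact layOf_col _ _ _

theorem sum_layCols_le [NeZero q] (P : Fin 10 → Coef q) (S : Finset (ZMod q)) :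
    ∑ i : Lay u, (layCols P i S).card ≤ (colours (u := u) P S).card := by
  let _ : DecidableEq (Pool u q) := Classical.decEq _
  classical
  generalize (Finset.univ : Finset (Lay u)) = U
  rw [← card_biUnion fun i _ j _ hij => disjoint_left.2 fun c hi hj =>
    hij (Option.some.inj ((layOf_of_mem hi).symm.trans (layOf_of_mem hj)))]
  refine card_le_card fun c hc => ?_
  obtain ⟨i, -, hi⟩ := mem_biUnion.1 hc
  obtain ⟨y, hy, b, rfl⟩ := mem_layCols.1 hi
  exact mem_colours.2 ⟨y, hy, _, rfl⟩

theorem layCols_ge [NeZero q] (hp : Par u q) (P : Fin 10 → Coef q) (hP : PencilHyp P) (i : Lay u)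
    (S : Finset (ZMod q)) : S.card ≤ (layCols P i S).card := by
  let _ : DecidableEq (Pool u q) := Classical.decEq _
  classical
  by_cases h : (P i.1.1).A1 = 0
  · have h2 : (P i.1.1).A2 ≠ 0 := (hP.nonzero _).resolve_left fun h' => h' h
    refine card_le_card_of_injOn (fun y => col P y (i, true))
      (fun y hy => mem_layCols.2 ⟨y, hy, true, rfl⟩) fun a _ b _ hab => ?_
    rcases colVal_true_inj i hab with ⟨e, e'⟩ | ⟨-, -, e⟩
    · exact psi2_inj hp _ _ h2 (by rw [e, e']; simp [psi1, h])
    · exact psi2_inj hp _ _ h2 e
  · refine card_le_card_of_injOn (fun y => col P y (i, false))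
      (fun y hy => mem_layCols.2 ⟨y, hy, false, rfl⟩) fun a _ b _ hab => ?_
    simp only [col, colVal_false] at hab
    exact psi1_inj hp _ h (by simpa using hab)

theorem leak_rho_eq [NeZero q] (hp : Par u q) (c : Coef q) (j : Fin 200) (h : c.A1 ≠ 0)
    (S : Finset (ZMod q)) :
    leak (rho c j) S = (S.image (psi2 c j) \ S.image (psi1 c)).card := by
  rw [leak, ← card_image_of_injective _ (psi1_inj hp c h), image_sdiff _ _ (psi1_inj hp c h),
    image_image]
  congr 2
  exact image_congr fun y _ => psi1_rho hp c j h y

theorem leak_id [NeZero q] (hp : Par u q) (P : Fin 10 → Coef q) (g : Grp) (hg : GoodFam P g.1)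
    (h : IdGrp P g) (S : Finset (ZMod q)) : leak (rho (P g.1) g.2) S = 0 := by
  rw [leak_rho_eq hp _ _ hg.1, image_congr fun y _ => psi_eq_of_id h y]
  simp

theorem layCols_good [NeZero q] (hp : Par u q) (P : Fin 10 → Coef q) (i : Lay u)
    (hg : GoodFam P i.1.1) (hid : ¬ IdGrp P i.1) (S : Finset (ZMod q)) :
    S.card + leak (rho (P i.1.1) i.1.2) S ≤ (layCols P i S).card ∧
      (q ≤ S.card + 1 →
        S.card + leak (rho (P i.1.1) i.1.2) S + 6 ≤ (layCols P i S).card) := by
  let _ : DecidableEq (Pool u q) := Classical.decEq _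
  classical
  set c := P i.1.1 with hc
  set j := i.1.2
  set V1 := S.image (psi1 c)
  set T := (S.image (psi2 c j) \ V1) ∪ (block i.2 ∩ (V1 ∩ S.image (psi2 c j))) with hT
  have h1 : ∀ z ∈ T, ∃ y ∈ S, psi2 c j y = z := fun z hz => by
    rcases mem_union.1 hz with h | h
    · exact mem_image.1 (mem_sdiff.1 h).1
    · exact mem_image.1 (mem_inter.1 (mem_inter.1 h).2).2
  choose! yy hyy hyz using h1
  have hnew : ∀ z ∈ T, col P (yy z) (i, true) ∉ S.image (fun y => col P y (i, false)) := by
    intro z hz hmem
    obtain ⟨y, hy, e⟩ := mem_image.1 hmem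
    simp only [col, colVal_false, ← hc] at e
    rw [hyz z hz] at e
    by_cases a : z = psi1 c (yy z)
    · rw [← a, colVal_eq] at e; simp at e
    by_cases hl : z.val / 8 = i.2.val
    · rw [colVal_split i a hl] at e; simp at e
    rw [colVal_plain i a hl] at e
    simp at e
    rcases mem_union.1 hz with h | h
    · exact (mem_sdiff.1 h).2 (mem_image.2 ⟨y, hy, e⟩)
    · exact hl (by simpa [block] using (mem_inter.1 h).1)
  have hinj : Set.InjOn (fun z => col P (yy z) (i, true)) T := by
    intro a ha b hb hab
    simp only [col, ← hc] at hab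
    rcases colVal_true_inj i hab with ⟨e, e'⟩ | ⟨-, -, e⟩
    · rw [← hyz a ha, ← hyz b hb, meet_unique hp P i.1 hid e e']
    · rw [← hyz a ha, ← hyz b hb]; exact e
  have hsum : S.card + T.card ≤ (layCols P i S).card := by
    have hd : Disjoint (S.image fun y => col P y (i, false))
        (T.image fun z => col P (yy z) (i, true)) := by
      rw [disjoint_right]
      intro x hx
      obtain ⟨z, hz, rfl⟩ := mem_image.1 hx
      exact hnew z hz
    have hle := card_le_card (s := (S.image fun y => col P y (i, false)) ∪
      (T.image fun z => col P (yy z) (i, true))) (t := layCols P i S) (by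
        intro x hx
        rcases mem_union.1 hx with h | h
        · obtain ⟨y, hy, rfl⟩ := mem_image.1 h
          exact mem_layCols.2 ⟨y, hy, false, rfl⟩
        · obtain ⟨z, hz, rfl⟩ := mem_image.1 h
          exact mem_layCols.2 ⟨_, hyy z hz, true, rfl⟩)
    rw [card_union_of_disjoint hd, card_image_of_injOn hinj, card_image_of_injective] at hle
    · exact hle
    · intro a b hab
      simp only [col, colVal_false] at hab
      exact psi1_inj hp c hg.1 (by simpa using hab)
  have hd2 : Disjoint (S.image (psi2 c j) \ V1) (block i.2 ∩ (V1 ∩ S.image (psi2 c j))) := by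
    rw [disjoint_left]
    intro x h h'
    exact (mem_sdiff.1 h).2 (mem_inter.1 (mem_inter.1 h').2).1
  rw [hT, card_union_of_disjoint hd2, ← leak_rho_eq hp c j hg.1] at hsum
  refine ⟨by omega, fun hq => ?_⟩
  have hA : V1.card = S.card := card_image_of_injective _ (psi1_inj hp c hg.1)
  have hB : (S.image (psi2 c j)).card = S.card :=
    card_image_of_injective _ (psi2_inj hp c j hg.2)
  have hI := card_union_add_card_inter V1 (S.image (psi2 c j))
  have hI2 := card_union_add_card_inter (block i.2) (V1 ∩ S.image (psi2 c j))
  have := card_le_univ (V1 ∪ S.image (psi2 c j))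
  have := card_le_univ (block i.2 ∪ (V1 ∩ S.image (psi2 c j)))
  have := block_card hp (q := q) i.2
  rw [ZMod.card] at *
  omega

theorem card_bad [NeZero q] (P : Fin 10 → Coef q) (hP : PencilHyp P)
    [DecidablePred (GoodFam P)] :
    (Finset.univ.filter fun a => ¬ GoodFam P a).card ≤ 1 :=
  card_le_one.2 fun a ha b hb => hP.bad_unique a b (mem_filter.1 ha).2 (mem_filter.1 hb).2

theorem mem_linesWith [NeZero q] {P : Fin 10 → Coef q} {c : Pool u q} {y : ZMod q} :
    y ∈ linesWith P c ↔ ∃ s : Slot u, col P y s = c := by
  simp [linesWith]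

/-- The colours of one line are distinct. -/
theorem colO_injective [NeZero q] (hp : Par u q) (P : Fin 10 → Coef q) (i : Option (ZMod q)) :
    Function.Injective (colO P i : Slot u → Pool u q) := by
  intro s t h
  cases i with
  | none =>
    simp only [colO, specCol, Sum.inr.injEq, Sum.inl.injEq, Prod.mk.injEq] at h
    refine Prod.ext h.1 ?_
    revert h
    cases s.2 <;> cases t.2 <;> simp [Fin.ext_iff]
  | some y =>
    simp only [colO] at h
    have hi : s.1 = t.1 := Option.some.inj (((layOf_col P y s).symm.trans
      (congrArg layOf h)).trans (layOf_col P y t))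
    obtain ⟨i, b⟩ := s
    obtain ⟨i', b'⟩ := t
    subst hi
    cases b <;> cases b'
    · rfl
    · exact (colVal_true_ne_false _ _ _ (h.symm.trans (colVal_false _ _ _))).elim
    · exact (colVal_true_ne_false _ _ _ (h.trans (colVal_false _ _ _))).elim
    · rfl

/-- The colours of a special line are on no other line. -/
theorem col_ne_specCol (P : Fin 10 → Coef q) (y : ZMod q) (s s' : Slot u) :
    col P y s ≠ specCol s' := by
  unfold col colVal specCol
  split_ifs <;> simp [Fin.ext_iff] <;> omega

/-- Outside the split values, the colour of the first slot at `rho y` and of the second slot at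
`y` coincide, and no other slot carries it. -/
theorem bundle_colour [NeZero q] (hp : Par u q) (P : Fin 10 → Coef q) (g : Grp)
    (hg : GoodFam P g.1) (y : ZMod q) (hy : rho (P g.1) g.2 y ≠ y) (l : Fin (200 * u))
    (hl : (psi1 (P g.1) (rho (P g.1) g.2 y)).val / 8 ≠ l.val) :
    col P y (((g, l), true) : Slot u) =
        Sum.inl ((g, l), psi1 (P g.1) (rho (P g.1) g.2 y)) ∧
      col P (rho (P g.1) g.2 y) (((g, l), false) : Slot u) =
        Sum.inl ((g, l), psi1 (P g.1) (rho (P g.1) g.2 y)) ∧
      ∀ y' (s : Slot u), col P y' s = Sum.inl ((g, l), psi1 (P g.1) (rho (P g.1) g.2 y)) →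
        (y' = y ∧ s = ((g, l), true)) ∨ (y' = rho (P g.1) g.2 y ∧ s = ((g, l), false)) := by
  have e := psi1_rho hp (P g.1) g.2 hg.1 y
  have hne : psi2 (P g.1) g.2 y ≠ psi1 (P g.1) y := fun e' =>
    hy (psi1_inj hp _ hg.1 (e.trans e'))
  refine ⟨?_, colVal_false _ _ _, ?_⟩
  · rw [e] at hl ⊢
    exact colVal_plain _ hne hl
  · intro y' s h
    have hi : s.1 = (g, l) := by
      have := congrArg layOf h
      rw [layOf_col] at this
      exact Option.some.inj this
    obtain ⟨i, b⟩ := s
    subst hi
    cases b
    · simp only [col, colVal_false, Sum.inl.injEq, Prod.mk.injEq, true_and] at h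
      exact Or.inr ⟨psi1_inj hp _ hg.1 h, rfl⟩
    · refine Or.inl ⟨?_, rfl⟩
      simp only [col] at h
      rw [e] at h hl
      rw [← colVal_plain ((g, l) : Lay u) hne hl] at h
      rcases colVal_true_inj _ h with ⟨-, a⟩ | ⟨-, -, a⟩
      · exact (hne a).elim
      · exact psi2_inj hp _ _ hg.2 a

/-- The union of the colours on a set of lines. -/
theorem card_colours_ge [NeZero q] (hp : Par u q) (P : Fin 10 → Coef q) (hP : PencilHyp P)
    (S : Finset (ZMod q)) :
    400000 * u * S.card + 200 * u * totLeak P S ≤ (colours (u := u) P S).card ∧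
      (q ≤ S.card + 1 →
        400000 * u * S.card + 200 * u * totLeak P S + 2000000 * u ≤
          (colours (u := u) P S).card) := by
  let _ : DecidableEq (Pool u q) := Classical.decEq _
  classical
  let w : Grp → ℕ := fun g => if GoodFam P g.1 then leak (rho (P g.1) g.2) S else 0
  let e6 : Grp → ℕ := fun g => if GoodFam P g.1 ∧ ¬ IdGrp P g then 6 else 0
  have hw : ∑ g, w g = totLeak P S := by
    simp only [w, totLeak, goodGrps, ← sum_filter]
  have hcard : (Finset.univ : Finset (Lay u)).card = 400000 * u := by
    simp [Lay, Grp]; ring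
  have hlay : ∀ f : Grp → ℕ, ∑ i : Lay u, f i.1 = 200 * u * ∑ g, f g := fun f => by
    rw [Fintype.sum_prod_type, mul_sum]; simp
  have base : ∀ i : Lay u, S.card + w i.1 ≤ (layCols P i S).card ∧
      (q ≤ S.card + 1 → S.card + w i.1 + e6 i.1 ≤ (layCols P i S).card) := by
    intro i
    have h0 := layCols_ge hp P hP i S
    by_cases hg : GoodFam P i.1.1
    · by_cases hid : IdGrp P i.1
      · simp only [w, e6, hg, hid, if_true, not_true_eq_false, and_false, if_false,
          leak_id hp P i.1 hg hid]
        exact ⟨by omega, fun _ => by omega⟩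
      · simpa [w, e6, hg, hid] using layCols_good hp P i hg hid S
    · simp only [w, e6, hg, false_and, if_false]
      exact ⟨by omega, fun _ => by omega⟩
  refine ⟨?_, fun hq => ?_⟩
  · refine le_trans ?_ ((sum_le_sum fun i _ => (base i).1).trans (sum_layCols_le P S))
    rw [sum_add_distrib, sum_const, smul_eq_mul, hlay, hw, hcard]
  · refine le_trans ?_ ((sum_le_sum fun i _ => (base i).2 hq).trans (sum_layCols_le P S))
    rw [sum_add_distrib, sum_add_distrib, sum_const, smul_eq_mul, hlay, hlay, hw, hcard]
    have h6 : 1788 * 6 ≤ ∑ g, e6 g := by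
      simp only [e6, ← sum_filter, sum_const, smul_eq_mul]
      refine Nat.mul_le_mul_right 6 ?_
      have hb : (Finset.univ.filter fun g : Grp => ¬ GoodFam P g.1).card ≤ 200 := by
        have e : (Finset.univ.filter fun g : Grp => ¬ GoodFam P g.1) =
            (Finset.univ.filter fun a => ¬ GoodFam P a) ×ˢ Finset.univ := by ext g; simp
        rw [e, card_product, card_univ, Fintype.card_fin]
        have := card_bad P hP
        omega
      have hi : (Finset.univ.filter fun g : Grp => IdGrp P g).card ≤ 10 := by
        refine (card_le_card_of_injOn (fun g : Grp => g.1) (fun g _ => mem_univ g.1) ?_).trans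
          (by simp)
        intro a ha b hb' e
        exact idGrp_unique hp P (by simpa using ha) (by simpa using hb') e
      have h := three_cover (fun g : Grp => GoodFam P g.1) (fun g : Grp => IdGrp P g)
      simp only [Fintype.card_prod, Fintype.card_fin] at h
      omega
    have h2 : 2000000 * u ≤ 200 * u * ∑ g, e6 g :=
      le_trans (by linarith) (Nat.mul_le_mul_left (200 * u) h6)
    omega

/-- The leakage of singletons and of sets of middle size. -/
theorem totLeak_ge [NeZero q] (hp : Par u q) (P : Fin 10 → Coef q) (hP : PencilHyp P)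
    (S : Finset (ZMod q)) :
    (S.card = 1 → 1791 ≤ totLeak P S) ∧
      (2 ≤ S.card → S.card + 2 ≤ q → 3294 ≤ totLeak P S) := by
  let _ : DecidableEq (Pool u q) := Classical.decEq _
  classical
  have := Fact.mk hp.hq
  have hbig : 1000 ≤ q := by
    have := hp.hlo
    have := hp.hu
    simp only [nn] at *
    omega
  set G := Finset.univ.filter fun a => GoodFam P a with hG
  have hGc : 9 ≤ G.card := by
    have h := card_filter_add_card_filter_not (s := (Finset.univ : Finset (Fin 10)))
      (fun a => GoodFam P a)
    have := card_bad P hP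
    rw [card_univ, Fintype.card_fin] at h
    rw [hG]
    omega
  have hsplit : totLeak P S = ∑ a ∈ G, ∑ j, leak (rho (P a) j) S := by
    have e : goodGrps P = G ×ˢ Finset.univ := by ext g; simp [goodGrps, hG]
    rw [totLeak, e, sum_product]
  have fam : ∀ a ∈ G, (S.card = 1 → 199 ≤ ∑ j, leak (rho (P a) j) S) ∧
      (2 ≤ S.card → S.card + 2 ≤ q → 366 ≤ ∑ j, leak (rho (P a) j) S) := by
    intro a ha
    obtain ⟨h1, h2⟩ := (mem_filter.1 ha).2
    exact family_expand ((P a).A1⁻¹ * (P a).A2) (mul_ne_zero (inv_ne_zero h1) h2) hp.hq hbig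
      (fun j => (P a).A1⁻¹ * ((P a).B2 - (P a).B1 + (j.val : ZMod q)))
      (fun j j' e => member_injective hp (add_left_cancel (mul_left_cancel₀ (inv_ne_zero h1) e))) S
  rw [hsplit]
  refine ⟨fun h => ?_, fun h h' => ?_⟩
  · have := card_nsmul_le_sum G (fun a => ∑ j, leak (rho (P a) j) S) 199
      fun a ha => (fam a ha).1 h
    rw [smul_eq_mul] at this
    omega
  · have := card_nsmul_le_sum G (fun a => ∑ j, leak (rho (P a) j) S) 366
      fun a ha => (fam a ha).2 h h'
    rw [smul_eq_mul] at this
    omega

/-- Two lines share few colours. -/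
theorem shared_colours_le [NeZero q] (hp : Par u q) (P : Fin 10 → Coef q) (hP : PencilHyp P)
    {y y₀ : ZMod q} (hne : y ≠ y₀) :
    haveI := Classical.decEq (Pool u q)
    (colours (u := u) P {y} ∩ colours P {y₀}).card ≤ 90000 * u := by
  let _ : DecidableEq (Pool u q) := Classical.decEq _
  classical
  let X : Lay u → Finset (Pool u q) := fun i => layCols P i {y} ∩ layCols P i {y₀}
  let p1 : Grp → Prop := fun g => rho (P g.1) g.2 y₀ = y
  let p2 : Grp → Prop := fun g => rho (P g.1) g.2 y = y₀
  let wt : Grp → ℕ := fun g => if GoodFam P g.1 then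
    (if p1 g then 1 else 0) + (if p2 g then 1 else 0) + (if IdGrp P g then 1 else 0) else 2
  have hsub : ∀ c ∈ colours (u := u) P {y} ∩ colours P {y₀}, ∃ i, c ∈ X i := by
    intro c
    rw [mem_inter, mem_colours, mem_colours]
    rintro ⟨⟨a, ha, s, hs⟩, b, hb, t, ht⟩
    rw [mem_singleton] at ha hb
    subst ha hb
    have hi : s.1 = t.1 := Option.some.inj
      ((((layOf_col P a s).symm.trans (congrArg layOf hs))).trans
        ((congrArg layOf ht).symm.trans (layOf_col P b t)))
    refine ⟨s.1, mem_inter.2 ⟨mem_layCols.2 ⟨a, by simp, s.2, hs⟩,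
      mem_layCols.2 ⟨b, by simp, t.2, ?_⟩⟩⟩
    rw [hi]; exact ht
  have hX : ∀ i, (X i).card ≤ wt i.1 := by
    intro i
    by_cases hg : GoodFam P i.1.1
    · simp only [wt, hg, if_true]
      have h3 : X i ⊆ ((if p1 i.1 then {col P y (i, false)} else ∅) ∪
          (if p2 i.1 then {col P y₀ (i, false)} else ∅)) ∪
          (if IdGrp P i.1 then {Sum.inr (Sum.inl (i, 8))} else ∅) := by
        intro c hc
        obtain ⟨h1, h2⟩ := mem_inter.1 hc
        obtain ⟨a, ha, s, hs⟩ := mem_layCols.1 h1
        obtain ⟨b, hb, t, ht⟩ := mem_layCols.1 h2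
        rw [mem_singleton] at ha hb
        subst ha hb
        have i1 := psi1_inj hp _ hg.1
        have i2 := psi2_inj hp _ i.1.2 hg.2
        cases s <;> cases t
        · have := hs.trans ht.symm
          simp only [col, colVal_false, Sum.inl.injEq, Prod.mk.injEq, true_and] at this
          exact (hne (i1 this)).elim
        · have := ht.trans hs.symm
          simp only [col, colVal_false] at this
          have hp1 : p1 i.1 := by
            apply i1
            rw [psi1_rho hp _ _ hg.1]
            by_cases e : psi2 (P i.1.1) i.1.2 b = psi1 (P i.1.1) b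
            · rw [e, colVal_eq] at this; simp at this
            by_cases hl : (psi2 (P i.1.1) i.1.2 b).val / 8 = i.2.val
            · rw [colVal_split i e hl] at this; simp at this
            rw [colVal_plain i e hl] at this
            simpa using this
          refine mem_union_left _ (mem_union_left _ ?_)
          rw [if_pos hp1, mem_singleton]; exact hs.symm
        · have := hs.trans ht.symm
          simp only [col, colVal_false] at this
          have hp2 : p2 i.1 := by
            apply i1
            rw [psi1_rho hp _ _ hg.1]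
            by_cases e : psi2 (P i.1.1) i.1.2 a = psi1 (P i.1.1) a
            · rw [e, colVal_eq] at this; simp at this
            by_cases hl : (psi2 (P i.1.1) i.1.2 a).val / 8 = i.2.val
            · rw [colVal_split i e hl] at this; simp at this
            rw [colVal_plain i e hl] at this
            simpa using this
          refine mem_union_left _ (mem_union_right _ ?_)
          rw [if_pos hp2, mem_singleton]; exact ht.symm
        · rcases colVal_true_inj i (hs.trans ht.symm) with ⟨e, e'⟩ | ⟨-, -, e⟩
          · by_cases hid : IdGrp P i.1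
            · refine mem_union_right _ ?_
              rw [if_pos hid, mem_singleton, ← hs]
              simp only [col]
              rw [e, colVal_eq]
            · exact (hne (meet_unique hp P i.1 hid e e')).elim
          · exact (hne (i2 e)).elim
      refine (card_le_card h3).trans ((card_union_le _ _).trans
        (Nat.add_le_add ((card_union_le _ _).trans (Nat.add_le_add ?_ ?_)) ?_)) <;>
      split_ifs <;> simp
    · simp only [wt, hg, if_false]
      refine (card_le_card inter_subset_left).trans ?_
      simp only [layCols]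
      refine (card_union_le _ _).trans ?_
      simp
  have hfam : ∀ a, ∑ j, wt (a, j) ≤ if GoodFam P a then 3 else 400 := by
    intro a
    by_cases hg : GoodFam P a
    · simp only [wt, hg, if_true, sum_add_distrib, sum_boole, Nat.cast_id]
      have := Fact.mk hp.hq
      have hone : ∀ z z' : ZMod q,
          (Finset.univ.filter fun j => rho (P a) j z = z').card ≤ 1 := fun z z' => by
        refine card_filter_le_one _ fun j k hj hk => member_injective hp ?_
        have e := hj.trans hk.symm
        exact add_left_cancel (mul_left_cancel₀ (inv_ne_zero hg.1) (add_left_cancel e))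
      have h1 := hone y₀ y
      have h2 := hone y y₀
      have h3 : (Finset.univ.filter fun j => IdGrp P (a, j)).card ≤ 1 :=
        card_filter_le_one _ fun j k hj hk => (Prod.mk.inj (idGrp_unique hp P hj hk rfl)).2
      simp only [p1, p2, ← card_filter] at *
      omega
    · simp [wt, hg]
  have htot : ∑ g, wt g ≤ 430 := by
    rw [Fintype.sum_prod_type]
    refine (sum_le_sum fun a _ => hfam a).trans ?_
    rw [sum_ite, sum_const, sum_const, smul_eq_mul, smul_eq_mul]
    have := card_bad P hP
    have := card_le_univ (Finset.univ.filter fun a => GoodFam P a)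
    rw [Fintype.card_fin] at this
    omega
  refine (card_le_sum_fibres _ X hsub).trans ((sum_le_sum fun i _ => hX i).trans ?_)
  have e : ∑ i : Lay u, wt i.1 = 200 * u * ∑ g, wt g := by
    rw [Fintype.sum_prod_type, mul_sum]; simp
  rw [e]
  exact (Nat.mul_le_mul_left _ htot).trans (by linarith)

/-- Few colours lie on more than three lines, and these lie on almost every line. -/
theorem high_colours [NeZero q] (hp : Par u q) (P : Fin 10 → Coef q) (hP : PencilHyp P) :
    ∃ High : Finset (Pool u q), High.card ≤ 42000 * u ∧
      (∀ c ∈ High, q ≤ (linesWith P c).card + 1) ∧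
      ∀ c, c ∉ High → (linesWith P c).card ≤ 3 := by
  let _ : DecidableEq (Pool u q) := Classical.decEq _
  classical
  let Spec : Lay u → Prop := fun i => ¬ GoodFam P i.1.1 ∨ IdGrp P i.1
  let hc : Lay u → Pool u q := fun i =>
    if (P i.1.1).A1 = 0 then Sum.inl (i, (P i.1.1).B1)
    else if IdGrp P i.1 then Sum.inr (Sum.inl (i, 8))
    else colVal i true ((P i.1.1).B2 + (i.1.2.val : ZMod q) + 1)
      ((P i.1.1).B2 + (i.1.2.val : ZMod q))
  have := Fact.mk hp.hq
  have hflat : ∀ i : Lay u, (P i.1.1).A2 = 0 → ∀ y, psi2 (P i.1.1) i.1.2 y =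
      (P i.1.1).B2 + (i.1.2.val : ZMod q) := fun i h y => by simp [psi2, h]
  have hplain : ∀ (i : Lay u) (v v' z : ZMod q), z ≠ v → z ≠ v' →
      colVal i true v z = colVal i true v' z := fun i v v' z a b => by
    by_cases hl : z.val / 8 = i.2.val
    · rw [colVal_split i a hl, colVal_split i b hl]
    · rw [colVal_plain i a hl, colVal_plain i b hl]
  refine ⟨(Finset.univ.filter Spec).image hc, ?_, ?_, ?_⟩
  · refine card_image_le.trans ?_
    have hb : (Finset.univ.filter fun g : Grp => ¬ GoodFam P g.1 ∨ IdGrp P g).card ≤ 210 := by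
      have h1 : (Finset.univ.filter fun g : Grp => ¬ GoodFam P g.1).card ≤ 200 := by
        have e : (Finset.univ.filter fun g : Grp => ¬ GoodFam P g.1) =
            (Finset.univ.filter fun a => ¬ GoodFam P a) ×ˢ Finset.univ := by ext g; simp
        rw [e, card_product, card_univ, Fintype.card_fin]
        have := card_bad P hP
        omega
      have hi : (Finset.univ.filter fun g : Grp => IdGrp P g).card ≤ 10 := by
        refine (card_le_card_of_injOn (fun g : Grp => g.1) (fun g _ => mem_univ g.1) ?_).trans
          (by simp)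
        intro a ha b hb' e
        exact idGrp_unique hp P (by simpa using ha) (by simpa using hb') e
      rw [filter_or]
      exact (card_union_le _ _).trans (Nat.add_le_add h1 hi)
    have e : Finset.univ.filter Spec = (Finset.univ.filter fun g : Grp =>
        ¬ GoodFam P g.1 ∨ IdGrp P g) ×ˢ (Finset.univ : Finset (Fin (200 * u))) := by
      ext i; simp [Spec]
    rw [e, card_product, card_univ, Fintype.card_fin]
    exact (Nat.mul_le_mul_right _ hb).trans (by linarith)
  · intro c
    rw [mem_image_filter_univ]
    rintro ⟨i, hiS, rfl⟩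
    by_cases h1 : (P i.1.1).A1 = 0
    · have : (Finset.univ : Finset (ZMod q)) ⊆ linesWith P (hc i) := fun y _ => by
        rw [mem_linesWith]
        exact ⟨(i, false), by simp [col, colVal_false, psi1, hc, h1]⟩
      have := card_le_card this
      rw [card_univ, ZMod.card] at this
      omega
    · by_cases hid : IdGrp P i.1
      · have : (Finset.univ : Finset (ZMod q)) ⊆ linesWith P (hc i) := fun y _ => by
          rw [mem_linesWith]
          exact ⟨(i, true), by simp only [col, hc, h1, hid, if_false, if_true]
                               rw [psi_eq_of_id hid, colVal_eq]⟩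
        have := card_le_card this
        rw [card_univ, ZMod.card] at this
        omega
      · have h2 : (P i.1.1).A2 = 0 := by
          by_contra h2; exact (hiS.resolve_right hid) ⟨h1, h2⟩
        obtain ⟨z, hz⟩ : ∃ z, psi1 (P i.1.1) z = (P i.1.1).B2 + (i.1.2.val : ZMod q) :=
          (Finite.injective_iff_surjective.1 (psi1_inj hp _ h1)) _
        have : Finset.univ.erase z ⊆ linesWith P (hc i) := fun y hy => by
          rw [mem_linesWith]
          refine ⟨(i, true), ?_⟩
          simp only [col, hc, h1, hid, if_false, hflat i h2]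
          refine hplain i _ _ _ (fun e => (mem_erase.1 hy).1 ?_) (by simp)
          exact psi1_inj hp _ h1 (e.symm.trans hz.symm)
        have := card_le_card this
        rw [card_erase_of_mem (mem_univ z), card_univ, ZMod.card] at this
        omega
  · intro c
    rw [mem_image_filter_univ]
    intro hnot
    by_cases hl : (layOf c).isSome
    · obtain ⟨i, hi⟩ := Option.isSome_iff_exists.1 hl
      have hsub : linesWith P c ⊆ (Finset.univ.filter fun y => col P y (i, false) = c) ∪
          (Finset.univ.filter fun y => col P y (i, true) = c) := by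
        intro y hy
        obtain ⟨⟨i', b⟩, hs⟩ := mem_linesWith.1 hy
        have : i' = i := by
          have := congrArg layOf hs
          rw [layOf_col, hi] at this
          exact Option.some.inj this
        subst this
        cases b <;> simp [hs]
      have hnc : Spec i → c ≠ hc i := fun h e =>
        hnot ⟨i, h, e.symm⟩
      have hF : (Finset.univ.filter fun y => col P y (i, false) = c).card ≤ 1 := by
        refine card_le_one.2 fun a ha b hb => ?_
        have ea := (mem_filter.1 ha).2
        have eb := (mem_filter.1 hb).2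
        by_cases h1 : (P i.1.1).A1 = 0
        · refine (hnc (Or.inl fun g => g.1 h1) ?_).elim
          rw [← ea]; simp [col, colVal_false, psi1, hc, h1]
        · have := ea.trans eb.symm
          simp only [col, colVal_false, Sum.inl.injEq, Prod.mk.injEq, true_and] at this
          exact psi1_inj hp _ h1 this
      have hT : (Finset.univ.filter fun y => col P y (i, true) = c).card ≤ 1 := by
        refine card_le_one.2 fun a ha b hb => ?_
        have ea := (mem_filter.1 ha).2
        have eb := (mem_filter.1 hb).2
        rcases colVal_true_inj i (ea.trans eb.symm) with ⟨e, e'⟩ | ⟨n1, -, e⟩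
        · by_cases hid : IdGrp P i.1
          · have hg1 : (P i.1.1).A1 ≠ 0 := fun h0 =>
              ((hP.nonzero i.1.1).resolve_left fun g => g h0) (hid.1 ▸ h0)
            refine (hnc (Or.inr hid) ?_).elim
            rw [← ea]; simp only [col, hc, hg1, hid, if_false, if_true]
            rw [e, colVal_eq]
          · exact meet_unique hp P i.1 hid e e'
        · by_cases h2 : (P i.1.1).A2 = 0
          · have hg1 : (P i.1.1).A1 ≠ 0 :=
              (hP.nonzero i.1.1).resolve_right fun g => g h2
            have hid : ¬ IdGrp P i.1 := fun hid => hg1 (hid.1.trans h2)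
            refine (hnc (Or.inl fun g => g.2 h2) ?_).elim
            rw [← ea]; simp only [col, hc, hg1, hid, if_false, hflat i h2]
            exact hplain i _ _ _ (by rw [← hflat i h2 a]; exact n1) (by simp)
          · exact psi2_inj hp _ _ h2 e
      exact (card_le_card hsub).trans ((card_union_le _ _).trans (by omega))
    · have : linesWith P c = ∅ := by
        refine eq_empty_of_forall_notMem fun y hy => hl ?_
        obtain ⟨s, hs⟩ := mem_linesWith.1 hy
        rw [← hs, layOf_col]; rfl
      simp [this]

end Vale.Agent.P045.Ryser
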